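import Vale.Agent.P040.Geo.Defs
import Vale.Agent.P040.SymSphere

/-!
# P040, geodesic drawings: choice of the chart
-/

open Finset

namespace P040.Geo

open Vale.Agent.P040 (Vec det3)

/-- the linear form with coefficients `h` -/
def hf (h v : Vec) : ℝ := h 0 * v 0 + h 1 * v 1 + h 2 * v 2

/-- the chart -/
noncomputable def chart (h v : Vec) : Pt := (v 1 / hf h v, v 2 / hf h v)

/-- the sign of a vertex -/
noncomputable def sgn (h v : Vec) : Bool := decide (0 < hf h v)

/-- cross product -/
def cr3 (a b : Vec) : Vec :=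
  ![a 1 * b 2 - a 2 * b 1, a 2 * b 0 - a 0 * b 2, a 0 * b 1 - a 1 * b 0]

/-- the common point of two great circles -/
def meet (a b c d : Vec) : Vec := cr3 (cr3 a b) (cr3 c d)

lemma det_chart (h a b c : Vec) (ha : hf h a ≠ 0) (hb : hf h b ≠ 0) (hc : hf h c ≠ 0) :
    h 0 * det3 a b c =
      hf h a * hf h b * hf h c * area (chart h a) (chart h b) (chart h c) := by
  simp only [area, chart, det3]
  field_simp
  simp only [hf]
  ring

lemma par_chart (h a b c d : Vec) (ha : hf h a ≠ 0) (hb : hf h b ≠ 0) (hc : hf h c ≠ 0)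
    (hd : hf h d ≠ 0) :
    h 0 * hf h (meet a b c d) = hf h a * hf h b * hf h c * hf h d *
      (((chart h b).1 - (chart h a).1) * ((chart h d).2 - (chart h c).2) -
        ((chart h b).2 - (chart h a).2) * ((chart h d).1 - (chart h c).1)) := by
  simp only [chart]
  field_simp
  simp only [hf, meet, cr3, Matrix.cons_val_zero, Matrix.cons_val_one, Matrix.cons_val_two,
    Matrix.head_cons, Matrix.tail_cons]
  ring

lemma meet_eq (a b c d : Vec) : meet a b c d = det3 a b d • c - det3 a b c • d := by
  funext i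
  fin_cases i <;> simp [meet, cr3, det3] <;> ring

lemma det3_comb (a b : ℝ) (u v w : Vec) : det3 (a • u + b • v) v w = a * det3 u v w := by
  simp [det3]
  ring

lemma det3_comb' (a b : ℝ) (u v w : Vec) : det3 (a • u + b • v) u w = -(b * det3 u v w) := by
  simp [det3]
  ring

/-- a combination of two independent vectors -/
lemma eq_zero_of_comb (a b : ℝ) (u v w : Vec) (hd : det3 u v w ≠ 0) (h : a • u + b • v = 0) :
    a = 0 ∧ b = 0 := by
  have h1 := det3_comb a b u v w
  have h2 := det3_comb' a b u v w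
  rw [h] at h1 h2
  have h0 : ∀ x y : Vec, det3 0 x y = 0 := fun x y => by simp [det3]
  rw [h0] at h1 h2
  constructor
  · rcases mul_eq_zero.1 h1.symm with h | h
    · exact h
    · exact absurd h hd
  · rcases mul_eq_zero.1 (neg_eq_zero.1 h2.symm) with h | h
    · exact h
    · exact absurd h hd

/-- a form on the moment curve avoiding finitely many vectors -/
lemma exists_mom (W : Finset Vec) (hW : ∀ w ∈ W, w ≠ 0) :
    ∃ t : ℝ, ∀ w ∈ W, hf ![1, t, t ^ 2] w ≠ 0 := by
  have hfin : (⋃ w ∈ W, {t : ℝ | hf ![1, t, t ^ 2] w = 0}).Finite := by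
    refine W.finite_toSet.biUnion fun w hw => ?_
    have hP : (Polynomial.C (w 0) + Polynomial.C (w 1) * Polynomial.X +
        Polynomial.C (w 2) * Polynomial.X ^ 2) ≠ 0 := by
      intro h
      apply hW w hw
      funext i
      have hc := fun j => congrArg (fun P => Polynomial.coeff P j) h
      fin_cases i
      · simpa using hc 0
      · simpa using hc 1
      · simpa using hc 2
    refine (Polynomial.finite_setOf_isRoot hP).subset fun t ht => ?_
    simp only [Set.mem_setOf_eq, Polynomial.IsRoot.def, Polynomial.eval_add, Polynomial.eval_mul,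
      Polynomial.eval_C, Polynomial.eval_X, Polynomial.eval_pow] at ht ⊢
    simp only [hf, Matrix.cons_val_zero, Matrix.cons_val_one, Matrix.cons_val_two,
      Matrix.head_cons, Matrix.tail_cons] at ht
    linarith
  obtain ⟨t, ht⟩ := hfin.infinite_compl.nonempty
  exact ⟨t, fun w hw h => ht (Set.mem_biUnion hw h)⟩

/-- discrete intermediate values for a walk with steps of size one -/
lemma exists_eq_of_steps (n : ℕ) (F : ℕ → ℤ) (c : ℤ)
    (hs : ∀ t < n, |F (t + 1) - F t| ≤ 1) (h0 : min (F 0) (F n) ≤ c) (h1 : c ≤ max (F 0) (F n)) :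
    ∃ t ≤ n, F t = c := by
  induction n with
  | zero => exact ⟨0, le_rfl, by simp at h0 h1; omega⟩
  | succ n ih =>
    by_cases h : F (n + 1) = c
    · exact ⟨n + 1, le_rfl, h⟩
    have := hs n n.lt_succ_self
    obtain ⟨t, ht, hF⟩ := ih (fun t ht => hs t (by omega)) (by rw [abs_le] at this; omega)
      (by rw [abs_le] at this; omega)
    exact ⟨t, by omega, hF⟩

/-- a form avoiding `W` with `k + 1` of the vectors `B` on its positive side -/
theorem exists_chart (k : ℕ) (B : Fin (2 * k + 1) → Vec)
    (hB : ∀ i, B i ≠ 0) (hind : ∀ i j, i ≠ j → ∀ a b : ℝ, a • B i + b • B j = 0 → a = 0 ∧ b = 0)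
    (W : Finset Vec) (hW : ∀ w ∈ W, w ≠ 0) :
    ∃ h : Vec, h 0 ≠ 0 ∧ (∀ w ∈ W, hf h w ≠ 0) ∧ (∀ i, hf h (B i) ≠ 0) ∧
      (univ.filter fun i => sgn h (B i) = true).card = k + 1 := by
  classical
  obtain ⟨t, ht⟩ := exists_mom (W ∪ univ.image B) (by
    intro w hw
    simp only [mem_union, mem_image, mem_univ, true_and] at hw
    rcases hw with hw | ⟨i, rfl⟩
    · exact hW w hw
    · exact hB i)
  set u : Vec := ![1, t, t ^ 2] with hu
  have huB : ∀ i, hf u (B i) ≠ 0 := fun i => ht _ (by simp)
  have huW : ∀ w ∈ W, hf u w ≠ 0 := fun w hw => ht _ (by simp [hw])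
  set D := (univ.filter fun q : Fin (2 * k + 1) × Fin (2 * k + 1) => q.1 ≠ q.2).image fun q =>
    hf u (B q.2) • B q.1 - hf u (B q.1) • B q.2 with hD
  obtain ⟨t', ht'⟩ := exists_mom D (by
    intro w hw h0
    simp only [hD, mem_image, mem_filter, mem_univ, true_and] at hw
    obtain ⟨⟨i, j⟩, hij, rfl⟩ := hw
    exact huB j (hind i j hij _ (-hf u (B i)) (by rw [neg_smul, ← sub_eq_add_neg]; exact h0)).1)
  set g : Vec := ![1, t', t' ^ 2] with hg
  -- the form g + l u vanishes at B i for l = r i
  set r : Fin (2 * k + 1) → ℝ := fun i => -(hf g (B i) / hf u (B i)) with hr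
  have hrinj : Function.Injective r := by
    intro i j hij
    by_contra hne
    apply ht' (hf u (B j) • B i - hf u (B i) • B j)
      (mem_image.2 ⟨(i, j), by simp [hne], rfl⟩)
    have h1 : hf g (B i) / hf u (B i) = hf g (B j) / hf u (B j) := neg_inj.1 hij
    rw [div_eq_div_iff (huB i) (huB j)] at h1
    simp only [hf, Pi.sub_apply, Pi.smul_apply, smul_eq_mul] at h1 ⊢
    linarith
  let e := Tuple.sort r
  have hmono : StrictMono (r ∘ e) :=
    (Tuple.monotone_sort r).strictMono_of_injective (hrinj.comp e.injective)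
  set pos : Fin (2 * k + 1) → Bool := fun i => decide (0 < hf u (B i)) with hpos
  set G : ℕ → ℤ := fun c => ((univ.filter fun t : Fin (2 * k + 1) =>
    (decide ((t : ℕ) < c) == pos (e t)) = true).card : ℤ) with hG
  obtain ⟨c, hc, hGc⟩ : ∃ c ≤ 2 * k + 1, G c = (k : ℤ) + 1 := by
    have hsum : G 0 + G (2 * k + 1) = 2 * (k : ℤ) + 1 := by
      have := card_filter_add_card_filter_not (s := (univ : Finset (Fin (2 * k + 1))))
        (fun t : Fin (2 * k + 1) => (decide ((t : ℕ) < 0) == pos (e t)) = true)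
      rw [card_univ, Fintype.card_fin] at this
      have h2 : (univ.filter fun t : Fin (2 * k + 1) =>
          (decide ((t : ℕ) < 2 * k + 1) == pos (e t)) = true) =
          univ.filter fun t : Fin (2 * k + 1) =>
            ¬ (decide ((t : ℕ) < 0) == pos (e t)) = true := by
        refine filter_congr fun t _ => ?_
        cases pos (e t) <;> simp [t.isLt]
      simp only [hG]
      rw [h2]
      exact_mod_cast this
    refine exists_eq_of_steps _ G _ (fun c hc => ?_) (by omega) (by omega)
    set X := univ.filter fun t : Fin (2 * k + 1) => (decide ((t : ℕ) < c) == pos (e t)) = true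
    set Y := univ.filter fun t : Fin (2 * k + 1) => (decide ((t : ℕ) < c + 1) == pos (e t)) = true
    have hXY : X.erase ⟨c, hc⟩ = Y.erase ⟨c, hc⟩ := by
      ext t
      simp only [X, Y, mem_erase, mem_filter, mem_univ, true_and, ne_eq, and_congr_right_iff]
      intro htc
      have : ((t : ℕ) < c + 1) ↔ ((t : ℕ) < c) := by
        have : (t : ℕ) ≠ c := fun h => htc (Fin.ext h)
        omega
      simp [this]
    have hh := congrArg Finset.card hXY
    have b1 := card_le_card (erase_subset ⟨c, hc⟩ X)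
    have b2 := card_le_card (erase_subset ⟨c, hc⟩ Y)
    have b3 := pred_card_le_card_erase (s := X) (a := ⟨c, hc⟩)
    have b4 := pred_card_le_card_erase (s := Y) (a := ⟨c, hc⟩)
    show |(Y.card : ℤ) - X.card| ≤ 1
    rw [abs_le]
    omega
  -- an interval of parameters with this pattern
  have hint : ∃ S : Set ℝ, S.Infinite ∧ ∀ l ∈ S, ∀ t : Fin (2 * k + 1),
      ((t : ℕ) < c → r (e t) < l) ∧ (c ≤ (t : ℕ) → l < r (e t)) := by
    rcases Nat.lt_or_ge c (2 * k + 1) with hc1 | hc1
    · rcases Nat.eq_zero_or_pos c with rfl | hc0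
      · refine ⟨Set.Iio (r (e ⟨0, hc1⟩)), Set.Iio_infinite _, fun l hl t => ⟨by omega, fun _ => ?_⟩⟩
        exact lt_of_lt_of_le hl (hmono.monotone (show (⟨0, hc1⟩ : Fin _) ≤ t from Nat.zero_le _))
      · refine ⟨Set.Ioo (r (e ⟨c - 1, by omega⟩)) (r (e ⟨c, hc1⟩)),
          Set.Ioo_infinite (hmono (by rw [Fin.lt_def]; show c - 1 < c; omega)), fun l hl t =>
            ⟨fun h => ?_, fun h => ?_⟩⟩
        · exact lt_of_le_of_lt (hmono.monotone (show t ≤ (⟨c - 1, _⟩ : Fin _) by
            rw [Fin.le_def]; show (t : ℕ) ≤ c - 1; omega)) hl.1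
        · exact lt_of_lt_of_le hl.2 (hmono.monotone (show (⟨c, hc1⟩ : Fin _) ≤ t from h))
    · refine ⟨Set.Ioi (r (e ⟨2 * k, by omega⟩)), Set.Ioi_infinite _, fun l hl t =>
        ⟨fun _ => ?_, fun h => absurd h (by omega)⟩⟩
      exact lt_of_le_of_lt (hmono.monotone (show t ≤ (⟨2 * k, _⟩ : Fin _) by
        rw [Fin.le_def]; show (t : ℕ) ≤ 2 * k; omega)) hl
  obtain ⟨S, hS, hSp⟩ := hint
  set bad : Finset ℝ := insert (-1) (W.image fun w => -(hf g w / hf u w)) with hbad
  obtain ⟨l, hlS, hlb⟩ := (hS.sdiff bad.finite_toSet).nonempty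
  simp only [hbad, coe_insert, coe_image, Set.mem_insert_iff, Set.mem_image, mem_coe,
    not_or, not_exists, not_and] at hlb
  have hlin : ∀ v, hf (g + l • u) v = hf g v + l * hf u v := fun v => by
    simp [hf]; ring
  have hval : ∀ i, hf (g + l • u) (B i) = hf u (B i) * (l - r i) := fun i => by
    have := huB i
    rw [hlin, hr]
    field_simp
    ring
  refine ⟨g + l • u, ?_, fun w hw h => hlb.2 w hw ?_, fun i h => ?_, ?_⟩
  · have : (g + l • u) 0 = 1 + l := by simp [hg, hu]
    rw [this]
    intro h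
    exact hlb.1 (by linarith)
  · have := huW w hw
    rw [hlin] at h
    field_simp
    linarith
  · rw [hval] at h
    rcases mul_eq_zero.1 h with h | h
    · exact huB i h
    · obtain ⟨t, rfl⟩ := e.surjective i
      have h2 := hSp l hlS t
      rcases Nat.lt_or_ge (t : ℕ) c with h' | h'
      · linarith [h2.1 h']
      · linarith [h2.2 h']
  · have hkey : ∀ t : Fin (2 * k + 1),
        sgn (g + l • u) (B (e t)) = (decide ((t : ℕ) < c) == pos (e t)) := by
      intro t
      have h2 := hSp l hlS t
      have hne := huB (e t)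
      rw [sgn, hval, hpos]
      rcases Nat.lt_or_ge (t : ℕ) c with h' | h'
      · simp [h', mul_pos_iff_of_pos_right (sub_pos.2 (h2.1 h'))]
      · have hneg := sub_neg.2 (h2.2 h')
        rcases lt_or_gt_of_ne hne with hs | hs
        · simp [not_lt.2 h', mul_pos_of_neg_of_neg hs hneg, not_lt.2 hs.le]
        · simp [not_lt.2 h', not_lt.2 (mul_neg_of_pos_of_neg hs hneg).le, hs, not_lt.2 hneg.le]
    have : (univ.filter fun i => sgn (g + l • u) (B i) = true).card =
        (univ.filter fun t : Fin (2 * k + 1) =>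
          (decide ((t : ℕ) < c) == pos (e t)) = true).card := by
      rw [← card_map e.toEmbedding
        (s := univ.filter fun t : Fin (2 * k + 1) => (decide ((t : ℕ) < c) == pos (e t)) = true)]
      congr 1
      ext i
      obtain ⟨t, rfl⟩ := e.surjective i
      simp [hkey]
    rw [this]
    simp only [hG] at hGc
    omega

end P040.Geo
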