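import Vale.Agent.P040.Geo.Paths

/-!
# P040, geodesic drawings: the code

`phi z t` is the least cost of a path from `z` to the `t`-th boundary point. Two paths with
interleaved ends meet, so the difference of two such functions has interval sublevel sets; hence
the slope cuts of `phi` differ at most `4 cost` times.
-/

open Finset

namespace P040.Geo

/-- a periodic two-valued sequence without alternation changes at most twice per period -/
lemma changes_le (N : ℕ) (β : ℕ → Bool) (hper : ∀ t, β (t + N) = β t)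
    (hno : ∀ t₁ t₂ t₃ t₄, t₁ < t₂ → t₂ < t₃ → t₃ < t₄ → t₄ < t₁ + N →
      β t₁ ≠ β t₂ → β t₂ ≠ β t₃ → β t₃ ≠ β t₄ → False) :
    ((range N).filter fun t => β (t + 1) ≠ β t).card ≤ 2 := by
  by_contra hc
  set S := (range N).filter fun t => β (t + 1) ≠ β t with hS
  have hconst : ∀ a b, a ≤ b → b ≤ N → (∀ e ∈ S, ¬ (a ≤ e ∧ e < b)) → β b = β a := by
    intro a b hab hb he
    induction b, hab using Nat.le_induction with
    | base => rfl
    | succ b hab ih =>
      rw [← ih (by omega) fun e h1 h2 => he e h1 ⟨h2.1, by omega⟩]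
      by_contra hne
      exact he b (by simp [hS, hne]; omega) ⟨hab, by omega⟩
  have ne1 : S.Nonempty := card_pos.1 (by omega)
  set e1 := S.min' ne1 with he1
  have h1 : e1 ∈ S := min'_mem _ _
  have ne2 : (S.erase e1).Nonempty := card_pos.1 (by rw [card_erase_of_mem h1]; omega)
  set e2 := (S.erase e1).min' ne2 with he2
  have h2 : e2 ∈ S.erase e1 := min'_mem _ _
  have ne3 : ((S.erase e1).erase e2).Nonempty :=
    card_pos.1 (by rw [card_erase_of_mem h2, card_erase_of_mem h1]; omega)
  set e3 := ((S.erase e1).erase e2).min' ne3 with he3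
  have h3 : e3 ∈ (S.erase e1).erase e2 := min'_mem _ _
  have l12 : e1 < e2 := lt_of_le_of_ne (min'_le _ _ (mem_of_mem_erase h2)) (ne_of_mem_erase h2).symm
  have l23 : e2 < e3 := lt_of_le_of_ne (min'_le _ _ (mem_of_mem_erase h3)) (ne_of_mem_erase h3).symm
  have h2' : e2 ∈ S := mem_of_mem_erase h2
  have h3' : e3 ∈ S := mem_of_mem_erase (mem_of_mem_erase h3)
  rw [hS, mem_filter, mem_range] at h1 h2' h3'
  have c12 : β e2 = β (e1 + 1) := hconst _ _ l12 (by omega) fun e he h => by
    have : e2 ≤ e := min'_le _ _ (mem_erase.2 ⟨by omega, he⟩)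
    omega
  have c23 : β e3 = β (e2 + 1) := hconst _ _ l23 (by omega) fun e he h => by
    have : e3 ≤ e := min'_le _ _ (mem_erase.2 ⟨by omega, mem_erase.2 ⟨by omega, he⟩⟩)
    omega
  obtain ⟨h1N, h1⟩ := h1
  obtain ⟨h2N, h2'⟩ := h2'
  obtain ⟨h3N, h3'⟩ := h3'
  have a12 : β (e1 + 1) ≠ β (e2 + 1) := by rw [← c12]; exact h2'.symm
  have a23 : β (e2 + 1) ≠ β (e3 + 1) := by rw [← c23]; exact h3'.symm
  rcases Nat.lt_or_ge (e3 + 1) (e1 + N) with hlt | hge
  · exact hno e1 (e1 + 1) (e2 + 1) (e3 + 1) (by omega) (by omega) (by omega) hlt h1.symm a12 a23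
  · have e : e3 + 1 = e1 + N := by omega
    rw [e, hper] at a23
    revert h1 a12 a23
    cases β e1 <;> cases β (e1 + 1) <;> cases β (e2 + 1) <;> simp

/-- total variation of a periodic integer sequence with interval sublevel sets -/
lemma variation_le (N c : ℕ) (g : ℕ → ℤ) (hper : ∀ t, g (t + N) = g t)
    (hb : ∀ t, -(c : ℤ) ≤ g t ∧ g t ≤ c)
    (hno : ∀ κ t₁ t₂ t₃ t₄, t₁ < t₂ → t₂ < t₃ → t₃ < t₄ → t₄ < t₁ + N →
      g t₁ < κ → κ ≤ g t₂ → g t₃ < κ → κ ≤ g t₄ → False) :
    ∑ t ∈ range N, |g (t + 1) - g t| ≤ 4 * (c : ℤ) := by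
  have e : ∀ t, |g (t + 1) - g t| = ∑ κ ∈ Finset.Ioc (-(c : ℤ)) c,
      (if decide (g (t + 1) < κ) ≠ decide (g t < κ) then (1 : ℤ) else 0) := by
    intro t
    rw [← sum_filter, sum_const, nsmul_eq_mul, mul_one]
    rw [show ((Finset.Ioc (-(c : ℤ)) c).filter fun κ => decide (g (t + 1) < κ) ≠ decide (g t < κ))
        = Finset.Ioc (min (g (t + 1)) (g t)) (max (g (t + 1)) (g t)) by
      ext κ
      have := hb t
      have := hb (t + 1)
      simp only [mem_filter, Finset.mem_Ioc, ne_eq, decide_eq_decide]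
      omega]
    rw [Int.card_Ioc, Int.toNat_of_nonneg (by omega), max_sub_min_eq_abs, abs_sub_comm]
  simp only [e]
  rw [sum_comm]
  refine le_trans (sum_le_sum (g := fun _ => (2 : ℤ)) fun κ _ => ?_) ?_
  · rw [sum_boole]
    have := changes_le N (fun t => decide (g t < κ)) (fun t => by rw [hper])
      (fun t₁ t₂ t₃ t₄ h12 h23 h34 h41 a b d => by
        by_cases h : g t₁ < κ
        · simp [h] at a
          simp [not_lt.2 a] at b
          simp [b] at d
          exact hno κ t₁ t₂ t₃ t₄ h12 h23 h34 h41 h a b d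
        · simp [h] at a
          simp [a] at b
          simp [not_lt.2 b] at d
          exact hno κ t₂ t₃ t₄ (t₁ + N) h23 h34 h41 (by omega) a b d
            (by rw [hper]; exact not_lt.1 h))
    exact_mod_cast this
  · rw [sum_const, Int.card_Ioc, nsmul_eq_mul]
    omega

lemma segs_mem {e : Pt × Pt} : ∀ {l : List Pt}, e ∈ segs l →
    ∃ l₁ l₂, l = l₁ ++ e.1 :: e.2 :: l₂ := by
  intro l
  induction l with
  | nil => simp [segs]
  | cons a l ih =>
    cases l with
    | nil => simp [segs]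
    | cons b l =>
      intro h
      simp only [segs, List.tail_cons, List.zip_cons_cons, List.mem_cons] at h
      rcases h with h | h
      · exact ⟨[], l, by simp [h]⟩
      · obtain ⟨l₁, l₂, h'⟩ := ih (by simpa [segs] using h)
        exact ⟨a :: l₁, l₂, by simp [h']⟩

lemma segs_append {e : Pt × Pt} (l₁ l₂ : List Pt) (b : Pt) (h : e ∈ segs (l₁ ++ b :: l₂)) :
    e ∈ segs (l₁ ++ [b]) ∨ e ∈ segs (b :: l₂) := by
  induction l₁ with
  | nil => exact Or.inr h
  | cons a l ih =>
    cases l with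
    | nil =>
      simp only [segs, List.cons_append, List.nil_append, List.tail_cons, List.zip_cons_cons,
        List.mem_cons] at h ⊢
      rcases h with h | h
      · exact Or.inl (Or.inl h)
      · exact Or.inr h
    | cons d l =>
      simp only [segs, List.cons_append, List.tail_cons, List.zip_cons_cons, List.mem_cons] at h ih ⊢
      rcases h with h | h
      · exact Or.inl (Or.inl h)
      · rcases ih h with h | h
        · exact Or.inl (Or.inr h)
        · exact Or.inr h

variable {n : ℕ} {p : Fin n → Pt} {s : Fin n → Bool} {R : ℝ}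

lemma disc_segment {a b w : Pt} (ha : a.1 ^ 2 + a.2 ^ 2 ≤ R ^ 2) (hb : b.1 ^ 2 + b.2 ^ 2 ≤ R ^ 2)
    (hw : w ∈ segment ℝ a b) : w.1 ^ 2 + w.2 ^ 2 ≤ R ^ 2 := by
  obtain ⟨u, v, hu, hv, huv, rfl⟩ := hw
  simp only [Prod.fst_add, Prod.smul_fst, Prod.snd_add, Prod.smul_snd, smul_eq_mul]
  obtain rfl : v = 1 - u := by linarith
  nlinarith [mul_nonneg (mul_nonneg hu hv) (add_nonneg (sq_nonneg (a.1 - b.1)) (sq_nonneg (a.2 - b.2))),
    mul_le_mul_of_nonneg_left ha hu, mul_le_mul_of_nonneg_left hb hv]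

/-- a point of a path splits it -/
lemma link_through {l : List Pt} (hl : GoodPath p R l) {u x : Pt} (h0 : l.head? = some u)
    (h1 : l.getLast? = some x) {e : Pt × Pt} (he : e ∈ segs l) {w : Pt}
    (hw : w ∈ segment ℝ e.1 e.2) :
    ∃ c₁ c₂, Link p s R c₁ u w ∧ Link p s R c₂ w x ∧ c₁ + c₂ ≤ pathCost p s l := by
  obtain ⟨a, b⟩ := e
  obtain ⟨l₁, l₂, rfl⟩ : ∃ l₁ l₂, l = l₁ ++ a :: b :: l₂ := segs_mem he
  change w ∈ segment ℝ a b at hw
  obtain ⟨hc, hd⟩ := hl
  rw [List.isChain_append] at hc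
  obtain ⟨hc1, hc2, hc12⟩ := hc
  rw [List.isChain_cons_cons] at hc2
  obtain ⟨g1, g2, hsum⟩ := split_segment (s := s) hc2.1 hw
  have da := hd a (by simp)
  have db := hd b (by simp)
  have dw := disc_segment da db hw
  have la : Link p s R (pathCost p s (l₁ ++ [a])) u a :=
    ⟨l₁ ++ [a], ⟨List.isChain_append.2 ⟨hc1, List.isChain_singleton a, by simpa using hc12⟩,
      fun y hy => hd y (by simp at hy ⊢; tauto)⟩,
      by cases l₁ <;> simpa using h0, by simp, le_rfl⟩
  have lb : Link p s R (pathCost p s (b :: l₂)) b x :=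
    ⟨b :: l₂, ⟨hc2.2, fun y hy => hd y (by simp at hy ⊢; tauto)⟩, rfl,
      by rw [List.getLast?_append_of_ne_nil _ (by simp), List.getLast?_cons_cons] at h1; exact h1,
      le_rfl⟩
  refine ⟨_, _, la.trans (link_segment g1 da dw), (link_segment g2 dw db).trans lb, ?_⟩
  rw [pathCost_append l₁ (b :: l₂) a]
  simp only [pathCost]
  omega

section

variable {k m : ℕ} {p : Fin (2 * k + 1) → Pt} {s : Fin (2 * k + 1) → Bool} {z : Fin m → Pt}
  (B : Boundary p s z (k * k))

/-- the boundary points -/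
noncomputable def bpt (t : ℕ) : Pt := onCircle B.R (B.ang t)

/-- least cost of a path from `u` to the `t`-th boundary point -/
noncomputable def phi (u : Pt) (t : ℕ) : ℕ := sInf {c | Link p s B.R c u (bpt B t)}

/-- `u` is joined to the boundary -/
def Reach (u : Pt) : Prop := ∃ c, Link p s B.R c u (bpt B 0)

lemma bpt_half (t : ℕ) : bpt B (t + k * k) = -bpt B t := by
  unfold bpt onCircle
  rw [B.half, Real.cos_add_pi, Real.sin_add_pi]
  simp [Prod.neg_mk]

lemma bpt_per (t : ℕ) : bpt B (t + 2 * (k * k)) = bpt B t := by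
  rw [two_mul, ← add_assoc, bpt_half, bpt_half, neg_neg]

lemma bpt_disc (t : ℕ) : (bpt B t).1 ^ 2 + (bpt B t).2 ^ 2 = B.R ^ 2 := by
  unfold bpt onCircle
  have := Real.sin_sq_add_cos_sq (B.ang t)
  simp only
  linear_combination B.R ^ 2 * this

lemma link_arc (t : ℕ) : ∀ d, Link p s B.R d (bpt B t) (bpt B (t + d)) := by
  intro d
  induction d with
  | zero => exact link_self (bpt_disc B t).le
  | succ d ih => exact ih.trans (B.step (t + d))

lemma reach_exists {u : Pt} (hu : Reach B u) (t : ℕ) : ∃ c, Link p s B.R c u (bpt B t) := by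
  obtain ⟨c, hc⟩ := hu
  exact ⟨_, hc.trans (by simpa using link_arc B 0 t)⟩

lemma phi_le {u : Pt} {t c : ℕ} (h : Link p s B.R c u (bpt B t)) : phi B u t ≤ c := Nat.sInf_le h

lemma phi_spec {u : Pt} (hu : Reach B u) (t : ℕ) : Link p s B.R (phi B u t) u (bpt B t) :=
  Nat.sInf_mem (reach_exists B hu t)

lemma phi_per (u : Pt) (t : ℕ) : phi B u (t + 2 * (k * k)) = phi B u t := by
  unfold phi; rw [bpt_per]

lemma phi_step {u : Pt} (hu : Reach B u) (t : ℕ) :
    phi B u (t + 1) ≤ phi B u t + 1 ∧ phi B u t ≤ phi B u (t + 1) + 1 :=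
  ⟨phi_le B ((phi_spec B hu t).trans (B.step t)),
    phi_le B ((phi_spec B hu (t + 1)).trans (Link.symm (B.step t)))⟩

lemma phi_lipschitz {u v : Pt} (hv : Reach B v) {c : ℕ} (h : Link p s B.R c u v) (t : ℕ) :
    phi B u t ≤ c + phi B v t :=
  phi_le B (h.trans (phi_spec B hv t))

lemma reach_of_link {u v : Pt} (hv : Reach B v) {c : ℕ} (h : Link p s B.R c u v) : Reach B u := by
  obtain ⟨d, hd⟩ := hv
  exact ⟨_, h.trans hd⟩

lemma reach_bpt (t : ℕ) : Reach B (bpt B t) :=
  ⟨_, Link.symm (by simpa using link_arc B 0 t)⟩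

/-- slope of `phi` -/
noncomputable def slope (u : Pt) (t : ℕ) : ℤ := (phi B u (t + 1) : ℤ) - phi B u t

/-- variation of the difference of two slopes -/
noncomputable def slopeDist (u v : Pt) : ℤ :=
  ∑ t ∈ range (2 * (k * k)), |slope B u t - slope B v t|

lemma exchange {u v : Pt} (hu : Reach B u) (hv : Reach B v) (t₁ t₂ t₃ t₄ : ℕ)
    (h12 : t₁ < t₂) (h23 : t₂ < t₃) (h34 : t₃ < t₄) (h41 : t₄ < t₁ + 2 * (k * k)) :
    ∃ a ∈ ({t₁, t₃} : Finset ℕ), ∃ b ∈ ({t₂, t₄} : Finset ℕ),
      (phi B u b : ℤ) - phi B v b ≤ (phi B u a : ℤ) - phi B v a := by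
  obtain ⟨P1, g1, a1, b1, c1⟩ := phi_spec B hu t₁
  obtain ⟨P3, g3, a3, b3, c3⟩ := phi_spec B hu t₃
  obtain ⟨P2, g2, a2, b2, c2⟩ := phi_spec B hv t₂
  obtain ⟨P4, g4, a4, b4, c4⟩ := phi_spec B hv t₄
  obtain ⟨r1, hr1⟩ : ∃ r, P1.reverse = r ++ [u] :=
    List.getLast?_eq_some_iff.1 (by rw [List.getLast?_reverse]; exact a1)
  obtain ⟨r3, rfl⟩ : ∃ r, P3 = u :: r := List.head?_eq_some_iff.1 a3
  obtain ⟨r2, hr2⟩ : ∃ r, P2.reverse = r ++ [v] :=
    List.getLast?_eq_some_iff.1 (by rw [List.getLast?_reverse]; exact a2)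
  obtain ⟨r4, rfl⟩ : ∃ r, P4 = v :: r := List.head?_eq_some_iff.1 a4
  have mem1 : ∀ x ∈ r1 ++ [u], x.1 ^ 2 + x.2 ^ 2 ≤ B.R ^ 2 := fun x hx =>
    g1.2 x (List.mem_reverse.1 (hr1 ▸ hx))
  have mem2 : ∀ x ∈ r2 ++ [v], x.1 ^ 2 + x.2 ^ 2 ≤ B.R ^ 2 := fun x hx =>
    g2.2 x (List.mem_reverse.1 (hr2 ▸ hx))
  have hP : ∀ x ∈ r1 ++ u :: r3, x.1 ^ 2 + x.2 ^ 2 ≤ B.R ^ 2 := by
    intro x hx
    rcases List.mem_append.1 hx with hx | hx
    · exact mem1 x (List.mem_append_left _ hx)
    · exact g3.2 x hx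
  have hQ : ∀ x ∈ r2 ++ v :: r4, x.1 ^ 2 + x.2 ^ 2 ≤ B.R ^ 2 := by
    intro x hx
    rcases List.mem_append.1 hx with hx | hx
    · exact mem2 x (List.mem_append_left _ hx)
    · exact g4.2 x hx
  have hh1 : (r1 ++ [u]).head? = some (bpt B t₁) := by rw [← hr1, List.head?_reverse]; exact b1
  have hh2 : (r2 ++ [v]).head? = some (bpt B t₂) := by rw [← hr2, List.head?_reverse]; exact b2
  obtain ⟨e, he, f, hf, w, hwe, hwf⟩ := interleave_meet B.R B.pos
    ![B.ang t₁, B.ang t₂, B.ang t₃, B.ang t₄]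
    (by
      refine Fin.strictMono_iff_lt_succ.2 fun i => ?_
      fin_cases i <;> simp [B.mono h12, B.mono h23, B.mono h34])
    (by
      have h := B.mono h41
      rw [show t₁ + 2 * (k * k) = t₁ + k * k + k * k by omega, B.half, B.half] at h
      simp only [Matrix.cons_val]
      linarith)
    (r1 ++ u :: r3) (r2 ++ v :: r4) hP hQ
    (by cases r1 <;> simpa [bpt] using hh1)
    (by rw [List.getLast?_append_of_ne_nil _ (by simp)]; simpa [bpt] using b3)
    (by cases r2 <;> simpa [bpt] using hh2)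
    (by rw [List.getLast?_append_of_ne_nil _ (by simp)]; simpa [bpt] using b4)
  have hu' : ∃ a ∈ ({t₁, t₃} : Finset ℕ), ∃ c d, Link p s B.R c u w ∧
      Link p s B.R d w (bpt B a) ∧ c + d ≤ phi B u a := by
    rcases segs_append _ _ _ he with h | h
    · obtain ⟨c, d, lc, ld, hcd⟩ := link_through (s := s) (p := p) (R := B.R) (x := u)
        (l := r1 ++ [u]) ⟨hr1 ▸ List.isChain_reverse.2 (g1.1.imp fun x y hxy => hxy.symm), mem1⟩
        hh1 (by simp) h hwe
      rw [← hr1, pathCost_reverse g1.1] at hcd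
      exact ⟨t₁, by simp, d, c, ld.symm, lc.symm, by omega⟩
    · obtain ⟨c, d, lc, ld, hcd⟩ := link_through (s := s) g3 rfl b3 h hwe
      exact ⟨t₃, by simp, c, d, lc, ld, by omega⟩
  have hv' : ∃ b ∈ ({t₂, t₄} : Finset ℕ), ∃ c d, Link p s B.R c v w ∧
      Link p s B.R d w (bpt B b) ∧ c + d ≤ phi B v b := by
    rcases segs_append _ _ _ hf with h | h
    · obtain ⟨c, d, lc, ld, hcd⟩ := link_through (s := s) (p := p) (R := B.R) (x := v)
        (l := r2 ++ [v]) ⟨hr2 ▸ List.isChain_reverse.2 (g2.1.imp fun x y hxy => hxy.symm), mem2⟩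
        hh2 (by simp) h hwf
      rw [← hr2, pathCost_reverse g2.1] at hcd
      exact ⟨t₂, by simp, d, c, ld.symm, lc.symm, by omega⟩
    · obtain ⟨c, d, lc, ld, hcd⟩ := link_through (s := s) g4 rfl b4 h hwf
      exact ⟨t₄, by simp, c, d, lc, ld, by omega⟩
  obtain ⟨a, ha, c, d, lc, ld, hcd⟩ := hu'
  obtain ⟨b, hb, c', d', lc', ld', hcd'⟩ := hv'
  have e1 := phi_le B (lc.trans ld')
  have e2 := phi_le B (lc'.trans ld)
  exact ⟨a, ha, b, hb, by omega⟩

lemma slopeDist_le {u v : Pt} (hv : Reach B v) {c : ℕ} (h : Link p s B.R c u v) :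
    slopeDist B u v ≤ 4 * (c : ℤ) := by
  have hu := reach_of_link B hv h
  have := variation_le (2 * (k * k)) c (fun t => (phi B u t : ℤ) - phi B v t)
    (fun t => by rw [phi_per, phi_per])
    (fun t => by
      have e1 := phi_lipschitz B hv h t
      have e2 := phi_lipschitz B hu h.symm t
      omega)
    (fun κ t₁ t₂ t₃ t₄ h12 h23 h34 h41 a1 a2 a3 a4 => by
      obtain ⟨a, ha, b, hb, hab⟩ := exchange B hu hv t₁ t₂ t₃ t₄ h12 h23 h34 h41
      simp only [mem_insert, mem_singleton] at ha hb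
      rcases ha with rfl | rfl <;> rcases hb with rfl | rfl <;> omega)
  refine le_trans (le_of_eq ?_) this
  unfold slopeDist slope
  refine sum_congr rfl fun t _ => ?_
  congr 1
  ring

lemma half_lower (t : ℕ) {c : ℕ} (h : Link p s B.R c (bpt B t) (bpt B (t + k * k)))
    (hp : GenPos p) : k * k ≤ c := by
  obtain ⟨l, hl, h0, h1, hc⟩ := h
  rw [bpt_half] at h1
  exact le_trans (path_lower k p s hp B.R B.inP _ (bpt_disc B t) (B.flip t) l hl h0 h1) hc

lemma slope_bpt (hp : GenPos p) (r t : ℕ) (ht : r ≤ t) (ht' : t < r + 2 * (k * k)) :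
    slope B (bpt B r) t = if t < r + k * k then 1 else -1 := by
  have key : ∀ d, d ≤ k * k → phi B (bpt B r) (r + d) = d ∧
      phi B (bpt B r) (r + k * k + d) = k * k - d := by
    intro d hd
    have low := fun x => half_lower B r (c := x) (hp := hp)
    have u1 : phi B (bpt B r) (r + d) ≤ d := phi_le B (link_arc B r d)
    have u2 : phi B (bpt B r) (r + k * k + d) ≤ k * k - d := by
      have h := link_arc B (r + k * k + d) (k * k - d)
      rw [show r + k * k + d + (k * k - d) = r + 2 * (k * k) by omega, bpt_per] at h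
      exact phi_le B h.symm
    have l1 : k * k ≤ phi B (bpt B r) (r + d) + (k * k - d) := by
      refine low _ ((phi_spec B (reach_bpt B r) (r + d)).trans ?_)
      have h := link_arc B (r + d) (k * k - d)
      rwa [show r + d + (k * k - d) = r + k * k by omega] at h
    have l2 : k * k ≤ phi B (bpt B r) (r + k * k + d) + d :=
      low _ ((phi_spec B (reach_bpt B r) (r + k * k + d)).trans (link_arc B (r + k * k) d).symm)
    omega
  unfold slope
  split_ifs with h
  · obtain ⟨d, rfl⟩ := Nat.exists_eq_add_of_le ht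
    rw [(key d (by omega)).1, show r + d + 1 = r + (d + 1) by omega, (key (d + 1) (by omega)).1]
    push_cast; ring
  · obtain ⟨d, rfl⟩ := Nat.exists_eq_add_of_le (not_lt.1 h)
    rw [(key d (by omega)).2, show r + k * k + d + 1 = r + k * k + (d + 1) by omega,
      (key (d + 1) (by omega)).2]
    omega

lemma slopeDist_ends (hp : GenPos p) (r : ℕ) :
    slopeDist B (bpt B r) (bpt B (r + k * k)) = 4 * ((k * k : ℕ) : ℤ) := by
  have per : ∀ u t, slope B u (t + 2 * (k * k)) = slope B u t := by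
    intro u t; unfold slope
    rw [phi_per, show t + 2 * (k * k) + 1 = t + 1 + 2 * (k * k) by omega, phi_per]
  have perm : ∀ u t j, slope B u (t + j * (2 * (k * k))) = slope B u t := by
    intro u t j
    induction j with
    | zero => simp
    | succ j ih => rw [Nat.succ_mul, ← add_assoc, per, ih]
  have two : ∀ t, |slope B (bpt B r) t - slope B (bpt B (r + k * k)) t| = 2 ∨ k * k = 0 := by
    intro t
    rcases Nat.eq_zero_or_pos (k * k) with h0 | h0
    · exact Or.inr h0
    refine Or.inl ?_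
    obtain ⟨t', h1, h2, ht'⟩ : ∃ t', r + k * k ≤ t' ∧ t' < r + k * k + 2 * (k * k) ∧
        ∀ u, slope B u t' = slope B u t := by
      set N := 2 * (k * k) with hN
      set q := r + k * k with hq
      have hlt := Nat.mod_lt (t + q * N - q) (show 0 < N by omega)
      have hq' : q ≤ t + q * N := le_trans (Nat.le_mul_of_pos_right q (by omega)) (Nat.le_add_left _ _)
      refine ⟨q + (t + q * N - q) % N, by omega, by omega, fun u => ?_⟩
      have hdm := Nat.mod_add_div (t + q * N - q) N
      rw [← perm u (q + (t + q * N - q) % N) ((t + q * N - q) / N), ← perm u t q]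
      congr 1
      rw [Nat.mul_comm ((t + q * N - q) / N) N]
      omega
    rw [← ht', ← ht', slope_bpt B hp (r + k * k) t' h1 (by omega)]
    rcases Nat.lt_or_ge t' (r + 2 * (k * k)) with h | h
    · rw [slope_bpt B hp r t' (by omega) h, if_neg (by omega), if_pos (by omega)]; norm_num
    · obtain ⟨t'', rfl⟩ : ∃ t'', t' = t'' + 2 * (k * k) := ⟨t' - 2 * (k * k), by omega⟩
      rw [per, slope_bpt B hp r t'' (by omega) (by omega), if_pos (by omega), if_neg (by omega)]
      norm_num
  rcases Nat.eq_zero_or_pos (k * k) with h0 | h0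
  · unfold slopeDist; simp [h0]
  · unfold slopeDist
    rw [sum_congr rfl fun t _ => (two t).resolve_right (by omega)]
    simp; ring

/-- the cuts -/
noncomputable def cuts (u : Pt) (l : Fin (4 * (k * k))) : Bool :=
  decide (if l.val % 2 = 0 then 0 ≤ slope B u (l.val / 2) else 1 ≤ slope B u (l.val / 2))

lemma cuts_card {u v : Pt} (hu : Reach B u) (hv : Reach B v) :
    ((univ.filter fun l => cuts B u l ≠ cuts B v l).card : ℤ) = slopeDist B u v := by
  set F : ℕ → Bool := fun i => decide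
    ((decide (if i % 2 = 0 then 0 ≤ slope B u (i / 2) else 1 ≤ slope B u (i / 2)))
      ≠ decide (if i % 2 = 0 then 0 ≤ slope B v (i / 2) else 1 ≤ slope B v (i / 2))) with hF
  have e : ((univ.filter fun l => cuts B u l ≠ cuts B v l).card : ℤ)
      = ∑ i ∈ range (4 * (k * k)), (if F i = true then 1 else 0) := by
    rw [← Fin.sum_univ_eq_sum_range (fun i => if F i = true then (1 : ℤ) else 0), sum_boole]
    simp [hF, cuts]
  have pair : ∀ M, ∑ i ∈ range (2 * M), (if F i = true then (1 : ℤ) else 0)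
      = ∑ t ∈ range M, |slope B u t - slope B v t| := by
    intro M
    induction M with
    | zero => simp
    | succ M ih =>
      rw [show 2 * (M + 1) = 2 * M + 1 + 1 by ring, sum_range_succ, sum_range_succ, ih,
        sum_range_succ, add_assoc]
      congr 1
      have a := phi_step B hu M
      have b := phi_step B hv M
      simp only [hF, show (2 * M) % 2 = 0 by omega, show (2 * M) / 2 = M by omega,
        show (2 * M + 1) % 2 = 1 by omega, show (2 * M + 1) / 2 = M by omega, if_true,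
        Nat.one_ne_zero, if_false, decide_eq_true_eq, ne_eq, decide_eq_decide, slope]
      rw [abs_eq_max_neg]
      split_ifs <;> omega
  rw [e, show 4 * (k * k) = 2 * (2 * (k * k)) by ring, pair]
  rfl

lemma slopeDist_triangle (u v w : Pt) :
    slopeDist B u w ≤ slopeDist B u v + slopeDist B v w := by
  unfold slopeDist
  rw [← sum_add_distrib]
  exact sum_le_sum fun t _ => abs_sub_le _ _ _

lemma slopeDist_link_zero {u v : Pt} (hv : Reach B v) (h : Link p s B.R 0 u v) :
    slopeDist B u v = 0 :=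
  le_antisymm (by simpa using slopeDist_le B hv h) (sum_nonneg fun t _ => abs_nonneg _)

end

lemma chord_points {X za zb Y : Pt} (hne : za ≠ zb) (h1 : za ∈ segment ℝ X zb)
    (h2 : zb ∈ segment ℝ za Y) : za ∈ segment ℝ X Y := by
  obtain ⟨u, v, hu, hv, huv, e1⟩ := h1
  obtain ⟨c, d, hc, hd, hcd, e2⟩ := h2
  rcases lt_or_ge (v * c) 1 with hlt | hge
  · refine ⟨u / (1 - v * c), v * d / (1 - v * c), div_nonneg hu (by linarith),
      div_nonneg (mul_nonneg hv hd) (by linarith), ?_, ?_⟩
    · field_simp [show (1 - v * c) ≠ 0 by linarith]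
      have : u = 1 - v := by linarith
      have : d = 1 - c := by linarith
      subst_vars; ring
    · have e : u • X + (v * d) • Y = (1 - v * c) • za := by
        rw [sub_smul, one_smul]
        linear_combination (norm := module) e1 + v • e2
      rw [div_eq_inv_mul, div_eq_inv_mul, mul_smul, mul_smul, ← smul_add, e, smul_smul,
        inv_mul_cancel₀ (by linarith), one_smul]
  · have hv1 : v = 1 := by nlinarith
    obtain rfl : u = 0 := by linarith
    subst hv1
    exact absurd (by simpa using e1.symm) hne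

/-- `4k²` cuts, their count squeezed between the crossing numbers of segment and line -/
theorem exists_code (k : ℕ) (p : Fin (2 * k + 1) → Pt) (s : Fin (2 * k + 1) → Bool)
    (hp : GenPos p) (hs : (univ.filter fun i => s i = true).card = k + 1) {m : ℕ}
    (z : Fin m → Pt) (hz : GenWrt p z) :
    ∃ f : Fin (4 * (k * k)) → Fin m → Bool, ∀ a b, a ≠ b →
      (univ.filter fun l => f l a ≠ f l b).card ≤ 4 * cost p s (z a) (z b) ∧
      4 * (k * k) + 4 * cost p s (z a) (z b)
        ≤ (univ.filter fun l => f l a ≠ f l b).card + 4 * lineCost p s (z a) (z b) := by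
  rcases Nat.eq_zero_or_pos k with rfl | hk
  · refine ⟨fun _ _ => false, fun a b _ => ⟨by simp, ?_⟩⟩
    have : cost p s (z a) (z b) ≤ lineCost p s (z a) (z b) :=
      Set.ncard_le_ncard fun q hq => ⟨hq.1, hq.2.1⟩
    simp; omega
  obtain ⟨B⟩ := exists_boundary k hk p s hp hs z hz
  refine ⟨fun l a => cuts B (z a) l, fun a b hab => ?_⟩
  obtain ⟨X, Y, t, hX, hY, hza, hzb, hXY, hline, hXt, hYt⟩ := B.ends a b hab
  have hne : z a ≠ z b := fun e => hz.1 a b 0 hab (by rw [e]; simp [area])
  have hza' := chord_points hne hza hzb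
  obtain ⟨g1, g2, s1⟩ := split_segment (s := s) hXY hza'
  obtain ⟨g3, g4, s2⟩ := split_segment (s := s) g2 hzb
  have da := (B.inZ a).le
  have db := (B.inZ b).le
  have rX : Reach B X := reach_of_link B (reach_bpt B t) hXt
  have rY : Reach B Y := reach_of_link B (reach_bpt B (t + k * k)) hYt
  have l1 : Link p s B.R (cost p s X (z a)) X (z a) := link_segment g1 hX.le da
  have l2 : Link p s B.R (cost p s (z a) (z b)) (z a) (z b) := link_segment g3 da db
  have l3 : Link p s B.R (cost p s (z b) Y) (z b) Y := link_segment g4 db hY.le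
  have rb : Reach B (z b) := reach_of_link B rY l3
  have ra : Reach B (z a) := reach_of_link B rb l2
  have up := slopeDist_le B rb l2
  have low := slopeDist_ends B hp t
  have z1 : slopeDist B (bpt B t) X = 0 := slopeDist_link_zero B rX hXt.symm
  have z2 := slopeDist_link_zero B (reach_bpt B (t + k * k)) hYt
  have t1 := slopeDist_triangle B (bpt B t) X (bpt B (t + k * k))
  have t2 := slopeDist_triangle B X (z a) (bpt B (t + k * k))
  have t3 := slopeDist_triangle B (z a) (z b) (bpt B (t + k * k))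
  have t4 := slopeDist_triangle B (z b) Y (bpt B (t + k * k))
  have u1 := slopeDist_le B ra l1
  have u3 := slopeDist_le B rY l3
  have e := cuts_card B ra rb
  beta_reduce
  constructor <;> omega

end P040.Geo
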