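import Vale.Agent.P040.Geo.Chart

/-!
# P040, geodesic drawings: crossings seen in the chart, and the sum over pairs
-/

open Finset

namespace P040.Geo

open Vale.Agent.P040 (Vec det3 ArcsCross crossingPairs cramer)

/-- both numbers have the same sign -/
def SameSign (x y : ℝ) : Prop := 0 < x ↔ 0 < y

lemma arcsCross_of_signs (a b c d : Vec) (h1 : det3 c d b ≠ 0) (h2 : det3 a c d ≠ 0)
    (h3 : det3 a d b ≠ 0) (h4 : det3 a c b ≠ 0)
    (e1 : 0 < det3 c d b ↔ det3 a c d < 0) (e2 : 0 < det3 a d b ↔ det3 a c d < 0)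
    (e3 : det3 a c b < 0 ↔ det3 a c d < 0) : ArcsCross a b c d := by
  have key := cramer a c b d
  rcases lt_or_gt_of_ne h2 with h | h
  · refine ⟨det3 c d b, -det3 a c d, det3 a d b, -det3 a c b, e1.2 h, by linarith, e2.2 h,
      by linarith [e3.2 h], ?_⟩
    linear_combination (norm := module) -key
  · have n1 : det3 c d b < 0 := lt_of_le_of_ne (not_lt.1 fun hh => lt_asymm h (e1.1 hh)) h1
    have n2 : det3 a d b < 0 := lt_of_le_of_ne (not_lt.1 fun hh => lt_asymm h (e2.1 hh)) h3
    have n4 : 0 < det3 a c b :=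
      lt_of_le_of_ne (not_lt.1 fun hh => lt_asymm h (e3.1 hh)) h4.symm
    refine ⟨-det3 c d b, det3 a c d, -det3 a d b, det3 a c b, by linarith, h, by linarith, n4, ?_⟩
    linear_combination (norm := module) key

/-- two points on one side of the circle `a c` and `a`, `c` on one side of the circle `b d`:
one of the two pairings crosses -/
lemma cross_or (a b c d : Vec) (h1 : det3 c d b ≠ 0) (h2 : det3 a c d ≠ 0) (h3 : det3 a d b ≠ 0)
    (h4 : det3 a c b ≠ 0) (e : 0 < det3 a c b ↔ 0 < det3 a c d)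
    (e' : 0 < det3 a d b ↔ 0 < det3 c d b) : ArcsCross a b c d ∨ ArcsCross a d c b := by
  have f1 : det3 c b d = -det3 c d b := by simp [det3]; ring
  have f3 : det3 a b d = -det3 a d b := by simp [det3]; ring
  have n : ∀ x : ℝ, x ≠ 0 → (x < 0 ↔ ¬ 0 < x) := fun x hx =>
    ⟨fun h => not_lt.2 h.le, fun h => lt_of_le_of_ne (not_lt.1 h) hx⟩
  by_cases hc : (0 < det3 c d b ↔ det3 a c d < 0)
  · refine Or.inl (arcsCross_of_signs a b c d h1 h2 h3 h4 hc (e'.trans hc) ?_)
    rw [n _ h4, n _ h2, e]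
  · refine Or.inr (arcsCross_of_signs a d c b (by simpa [f1] using h1) h4 (by simpa [f3] using h3)
      h2 ?_ ?_ ?_)
    · rw [f1, neg_pos, n _ h4, e, n _ h1]
      rw [n _ h2] at hc
      tauto
    · rw [f3, neg_pos, n _ h4, e, n _ h3, e']
      rw [n _ h2] at hc
      tauto
    · rw [n _ h4, n _ h2, e]

variable {m n : ℕ}

/-- the condition that the pairs `a, b` and `i, j` give a crossing -/
def Meets (p : Fin n → Pt) (s : Fin n → Bool) (z : Fin m → Pt) (τ : Fin m → Bool)
    (a b : Fin m) (i j : Fin n) : Prop :=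
  SameSide p s (z a) (z b) i j ∧
    ((τ a = τ b) ↔ side (p i) (p j) (z a) = side (p i) (p j) (z b))

lemma side_congr (h0 u v x y : ℝ) (hh : h0 ≠ 0) (hu : u ≠ 0) (hv : v ≠ 0) (hx : x ≠ 0)
    (hy : y ≠ 0) (c d e : ℝ) (he : e ≠ 0) (h1 : h0 * c = e * u * x) (h2 : h0 * d = e * v * y) :
    (0 < c ↔ 0 < d) ↔
      (decide (0 < x) = decide (0 < y) ↔ decide (0 < u) = decide (0 < v)) := by
  have hc : c = e / h0 * (u * x) := by field_simp; linarith
  have hd : d = e / h0 * (v * y) := by field_simp; linarith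
  subst hc hd
  have hq : e / h0 ≠ 0 := div_ne_zero he hh
  rcases lt_or_gt_of_ne hq with a | a <;> rcases lt_or_gt_of_ne hu with b | b <;>
    rcases lt_or_gt_of_ne hv with c | c <;> rcases lt_or_gt_of_ne hx with d | d <;>
    rcases lt_or_gt_of_ne hy with f | f <;>
    simp [mul_pos_iff, mul_neg_iff, a, b, c, d, f, not_lt.2 a.le, not_lt.2 b.le, not_lt.2 c.le,
      not_lt.2 d.le, not_lt.2 f.le]

lemma cross_of_meets (A : Fin m → Vec) (B : Fin n → Vec) (h : Vec) (hh : h 0 ≠ 0)
    (hA : ∀ a, hf h (A a) ≠ 0) (hB : ∀ i, hf h (B i) ≠ 0)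
    (habi : ∀ a b i, a ≠ b → det3 (A a) (A b) (B i) ≠ 0)
    (haij : ∀ a i j, i ≠ j → det3 (A a) (B i) (B j) ≠ 0)
    (a b : Fin m) (i j : Fin n) (hab : a ≠ b) (hij : i ≠ j)
    (hm : Meets (fun i => chart h (B i)) (fun i => sgn h (B i)) (fun a => chart h (A a))
      (fun a => sgn h (A a)) a b i j) :
    ArcsCross (A a) (B i) (A b) (B j) ∨ ArcsCross (A a) (B j) (A b) (B i) := by
  obtain ⟨hS, hM⟩ := hm
  have ar0 : ∀ u v w : Vec, hf h u ≠ 0 → hf h v ≠ 0 → hf h w ≠ 0 → det3 u v w ≠ 0 →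
      area (chart h u) (chart h v) (chart h w) ≠ 0 := fun u v w hu hv hw hd h0 => by
    have := det_chart h u v w hu hv hw
    rw [h0, mul_zero] at this
    exact mul_ne_zero hh hd this
  refine cross_or _ _ _ _ ?_ (habi a b j hab) (haij a j i hij.symm) (habi a b i hab) ?_ ?_
  · have : det3 (A b) (B j) (B i) = det3 (A b) (B j) (B i) := rfl
    exact haij b j i hij.symm
  · refine (side_congr (h 0) (hf h (B i)) (hf h (B j))
      (area (chart h (A a)) (chart h (A b)) (chart h (B i)))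
      (area (chart h (A a)) (chart h (A b)) (chart h (B j))) hh (hB i) (hB j)
      (ar0 _ _ _ (hA a) (hA b) (hB i) (habi a b i hab))
      (ar0 _ _ _ (hA a) (hA b) (hB j) (habi a b j hab)) _ _ (hf h (A a) * hf h (A b))
      (mul_ne_zero (hA a) (hA b)) ?_ ?_).2 ?_
    · rw [det_chart h _ _ _ (hA a) (hA b) (hB i)]
    · rw [det_chart h _ _ _ (hA a) (hA b) (hB j)]
    · exact hS
  · have r1 : det3 (A a) (B j) (B i) = -det3 (B i) (B j) (A a) := by simp [det3]; ring
    have r2 : det3 (A b) (B j) (B i) = -det3 (B i) (B j) (A b) := by simp [det3]; ring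
    refine (side_congr (h 0) (hf h (A a)) (hf h (A b))
      (area (chart h (B i)) (chart h (B j)) (chart h (A a)))
      (area (chart h (B i)) (chart h (B j)) (chart h (A b))) hh (hA a) (hA b) ?_ ?_ _ _
      (-(hf h (B i) * hf h (B j))) (neg_ne_zero.2 (mul_ne_zero (hB i) (hB j))) ?_ ?_).2 ?_
    · refine ar0 _ _ _ (hB i) (hB j) (hA a) fun h0 => haij a j i hij.symm (by rw [r1, h0, neg_zero])
    · refine ar0 _ _ _ (hB i) (hB j) (hA b) fun h0 => haij b j i hij.symm (by rw [r2, h0, neg_zero])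
    · rw [r1, mul_neg, det_chart h _ _ _ (hB i) (hB j) (hA a)]
      ring
    · rw [r2, mul_neg, det_chart h _ _ _ (hB i) (hB j) (hA b)]
      ring
    · exact hM.symm

lemma not_cross_same (a b : Vec) (c : Vec) (hd : det3 a c b ≠ 0) : ¬ ArcsCross a b c b := by
  rintro ⟨α, β, γ, δ, hα, -, -, -, he⟩
  have h1 : det3 (α • a + β • b) c b = α * det3 a c b := by simp [det3]; ring
  have h2 : det3 (γ • c + δ • b) c b = 0 := by simp [det3]; ring
  rw [he, h2] at h1
  exact mul_ne_zero hα.ne' hd h1.symm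

/-- the pairs of pairs that give crossings inject into the crossing pairs -/
theorem card_meets_le (A : Fin m → Vec) (B : Fin n → Vec) (h : Vec) (hh : h 0 ≠ 0)
    (hA : ∀ a, hf h (A a) ≠ 0) (hB : ∀ i, hf h (B i) ≠ 0)
    (habi : ∀ a b i, a ≠ b → det3 (A a) (A b) (B i) ≠ 0)
    (haij : ∀ a i j, i ≠ j → det3 (A a) (B i) (B j) ≠ 0) :
    {w : (Fin m × Fin m) × (Fin n × Fin n) | w.1.1 < w.1.2 ∧ w.2.1 < w.2.2 ∧
      Meets (fun i => chart h (B i)) (fun i => sgn h (B i)) (fun a => chart h (A a))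
        (fun a => sgn h (A a)) w.1.1 w.1.2 w.2.1 w.2.2}.ncard ≤ (crossingPairs A B).ncard := by
  classical
  refine Set.ncard_le_ncard_of_injOn (fun w =>
    if ArcsCross (A w.1.1) (B w.2.1) (A w.1.2) (B w.2.2) then s((w.1.1, w.2.1), (w.1.2, w.2.2))
    else s((w.1.1, w.2.2), (w.1.2, w.2.1))) ?_ ?_ (Set.toFinite _)
  · rintro ⟨⟨a, b⟩, ⟨i, j⟩⟩ ⟨hab, hij, hm⟩
    dsimp only at hab hij hm ⊢
    split_ifs with hc
    · exact ⟨_, _, rfl, fun e => hab.ne (congrArg Prod.fst e), hc⟩
    · exact ⟨_, _, rfl, fun e => hab.ne (congrArg Prod.fst e),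
        (cross_of_meets A B h hh hA hB habi haij a b i j hab.ne hij.ne hm).resolve_left hc⟩
  · rintro ⟨⟨a, b⟩, ⟨i, j⟩⟩ ⟨hab, hij, -⟩ ⟨⟨a', b'⟩, ⟨i', j'⟩⟩ ⟨hab', hij', -⟩ he
    dsimp only at hab hij hab' hij' he
    split_ifs at he <;> simp only [Sym2.eq_iff, Prod.mk.injEq] at he <;>
      rcases he with ⟨⟨rfl, rfl⟩, rfl, rfl⟩ | ⟨⟨rfl, rfl⟩, rfl, rfl⟩ <;>
      first
        | rfl
        | exact absurd hab' (not_lt.2 hab.le)
        | exact absurd hij' (not_lt.2 hij.le)

lemma cost_le_lineCost (p : Fin n → Pt) (s : Fin n → Bool) (a b : Pt) :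
    cost p s a b ≤ lineCost p s a b :=
  Set.ncard_le_ncard (fun _ hq => ⟨hq.1, hq.2.1⟩) (Set.toFinite _)

lemma meets_count (p : Fin n → Pt) (s : Fin n → Bool) (z : Fin m → Pt) (τ : Fin m → Bool)
    (a b : Fin m) :
    {q : Fin n × Fin n | q.1 < q.2 ∧ Meets p s z τ a b q.1 q.2}.ncard =
      if τ a = τ b then lineCost p s (z a) (z b) - cost p s (z a) (z b)
      else cost p s (z a) (z b) := by
  unfold cost lineCost Cut Meets
  split_ifs with ht
  · rw [← Set.ncard_sdiff (fun q hq => by exact ⟨hq.1, hq.2.1⟩) (Set.toFinite _)]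
    congr 1
    ext q
    simp only [Set.mem_sdiff, Set.mem_setOf_eq, ht, true_iff]
    constructor
    · rintro ⟨h1, h2, h3⟩
      exact ⟨⟨h1, h2⟩, fun h4 => h4.2.2 h3⟩
    · rintro ⟨⟨h1, h2⟩, h3⟩
      exact ⟨h1, h2, by by_contra h4; exact h3 ⟨h1, h2, h4⟩⟩
  · congr 1
    ext q
    simp only [Set.mem_setOf_eq, ht, false_iff]

/-- `#(a < b, u a ≠ u b) ≤ m² / 4` -/
lemma differ_le (u : Fin m → Bool) :
    ((univ : Finset (Fin m × Fin m)).filter fun q => q.1 < q.2 ∧ u q.1 ≠ u q.2).card ≤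
      m ^ 2 / 4 := by
  have hle : ((univ : Finset (Fin m × Fin m)).filter fun q => q.1 < q.2 ∧ u q.1 ≠ u q.2).card ≤
      ((univ.filter fun a => u a = true) ×ˢ (univ.filter fun a => u a = false)).card := by
    refine card_le_card_of_injOn (fun q => if u q.1 then q else q.swap) ?_ ?_
    · rintro ⟨a, b⟩ hq
      simp only [coe_filter, mem_univ, true_and, Set.mem_setOf_eq] at hq
      simp only [coe_product, coe_filter, mem_univ, true_and, Set.mem_prod, Set.mem_setOf_eq]
      cases ha : u a <;> cases hb : u b <;> simp_all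
    · rintro ⟨a, b⟩ hq ⟨a', b'⟩ hq' he
      simp only [coe_filter, mem_univ, true_and, Set.mem_setOf_eq] at hq hq'
      dsimp only at he
      split_ifs at he <;> simp only [Prod.swap_prod_mk, Prod.mk.injEq] at he <;>
        obtain ⟨rfl, rfl⟩ := he <;> first | rfl | exact absurd hq'.1 (not_lt.2 hq.1.le)
  refine hle.trans ?_
  rw [card_product, Nat.le_div_iff_mul_le (by norm_num)]
  have hsum := card_filter_add_card_filter_not (s := (univ : Finset (Fin m)))
    (fun a => u a = true)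
  simp only [card_univ, Fintype.card_fin, Bool.not_eq_true] at hsum
  nlinarith [sq_nonneg (((univ.filter fun a => u a = true).card : ℤ) -
    (univ.filter fun a => u a = false).card)]

lemma pairs_card (m : ℕ) :
    ((univ : Finset (Fin m × Fin m)).filter fun q => q.1 < q.2).card = m * (m - 1) / 2 := by
  set U := (univ : Finset (Fin m × Fin m)).filter fun q => q.1 < q.2 with hU
  have hd : Disjoint U (U.image Prod.swap) := by
    rw [disjoint_left]
    intro p h1 h2
    simp only [hU, mem_image, mem_filter, mem_univ, true_and] at h1 h2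
    obtain ⟨q, hq, rfl⟩ := h2
    exact lt_asymm hq h1
  have hu : U ∪ U.image Prod.swap = (univ : Finset (Fin m)).offDiag := by
    ext ⟨x, y⟩
    simp only [hU, mem_union, mem_image, mem_filter, mem_univ, true_and, mem_offDiag, ne_eq]
    constructor
    · rintro (h | ⟨⟨x', y'⟩, h, e⟩)
      · exact h.ne
      · simp only [Prod.swap_prod_mk, Prod.mk.injEq] at e
        obtain ⟨rfl, rfl⟩ := e
        exact h.ne'
    · intro h
      rcases lt_or_gt_of_ne h with h' | h'
      · exact Or.inl h'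
      · exact Or.inr ⟨(y, x), h', rfl⟩
  have h := congrArg Finset.card hu
  rw [card_union_of_disjoint hd, card_image_of_injective _ Prod.swap_injective, offDiag_card,
    card_univ, Fintype.card_fin] at h
  rw [Nat.mul_sub, mul_one]
  omega

/-- The sum over the pairs `a < b`. -/
theorem sum_code (m L : ℕ) (p : Fin n → Pt) (s : Fin n → Bool) (z : Fin m → Pt)
    (τ : Fin m → Bool) (f : Fin (4 * L) → Fin m → Bool)
    (hf : ∀ a b, a ≠ b →
      (univ.filter fun l => f l a ≠ f l b).card ≤ 4 * cost p s (z a) (z b) ∧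
      4 * L + 4 * cost p s (z a) (z b) ≤
        (univ.filter fun l => f l a ≠ f l b).card + 4 * lineCost p s (z a) (z b)) :
    (m / 2) * ((m - 1) / 2) * L ≤
      {w : (Fin m × Fin m) × (Fin n × Fin n) | w.1.1 < w.1.2 ∧ w.2.1 < w.2.2 ∧
        Meets p s z τ w.1.1 w.1.2 w.2.1 w.2.2}.ncard := by
  classical
  set P := (univ : Finset (Fin m × Fin m)).filter fun q => q.1 < q.2 with hP
  set g : Fin (4 * L) → Fin m → Bool := fun l a => xor (f l a) (τ a) with hg
  have hW : {w : (Fin m × Fin m) × (Fin n × Fin n) | w.1.1 < w.1.2 ∧ w.2.1 < w.2.2 ∧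
      Meets p s z τ w.1.1 w.1.2 w.2.1 w.2.2}.ncard =
      ∑ q ∈ P, {r : Fin n × Fin n | r.1 < r.2 ∧ Meets p s z τ q.1 q.2 r.1 r.2}.ncard := by
    simp only [Set.ncard_eq_toFinset_card', Set.toFinset_setOf]
    rw [← card_sigma]
    refine card_bij (fun w _ => ⟨w.1, w.2⟩) (fun w hw => ?_) (fun w _ w' _ e => ?_) fun x hx => ?_
    · simp only [mem_filter, mem_univ, true_and] at hw
      simp [hP, mem_sigma, hw]
    · simp only [Sigma.mk.injEq, heq_eq_eq] at e
      exact Prod.ext e.1 e.2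
    · simp only [hP, mem_sigma, mem_filter, mem_univ, true_and] at hx
      exact ⟨(x.1, x.2), by simp [hx], rfl⟩
  have hpair : ∀ q ∈ P, 4 * L ≤
      4 * {r : Fin n × Fin n | r.1 < r.2 ∧ Meets p s z τ q.1 q.2 r.1 r.2}.ncard +
        (univ.filter fun l => g l q.1 ≠ g l q.2).card := by
    intro q hq
    simp only [hP, mem_filter, mem_univ, true_and] at hq
    obtain ⟨h1, h2⟩ := hf q.1 q.2 hq.ne
    have hcl := cost_le_lineCost p s (z q.1) (z q.2)
    rw [meets_count]
    split_ifs with ht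
    · have : (univ.filter fun l => g l q.1 ≠ g l q.2) =
          univ.filter fun l => f l q.1 ≠ f l q.2 := by
        refine filter_congr fun l _ => ?_
        simp only [hg, ht]
        cases f l q.1 <;> cases f l q.2 <;> cases τ q.2 <;> simp
      rw [this]
      omega
    · have : (univ.filter fun l => g l q.1 ≠ g l q.2) =
          univ.filter fun l => ¬ f l q.1 ≠ f l q.2 := by
        refine filter_congr fun l _ => ?_
        simp only [hg]
        revert ht
        cases f l q.1 <;> cases f l q.2 <;> cases τ q.1 <;> cases τ q.2 <;> simp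
      rw [this]
      have hs := card_filter_add_card_filter_not (s := (univ : Finset (Fin (4 * L))))
        (fun l => f l q.1 ≠ f l q.2)
      rw [card_univ, Fintype.card_fin] at hs
      omega
  have hsum := sum_le_sum hpair
  rw [sum_const, smul_eq_mul, sum_add_distrib, ← mul_sum, ← hW] at hsum
  have hd : ∑ q ∈ P, (univ.filter fun l => g l q.1 ≠ g l q.2).card ≤ 4 * L * (m ^ 2 / 4) := by
    calc ∑ q ∈ P, (univ.filter fun l => g l q.1 ≠ g l q.2).card
        = ∑ l, (P.filter fun q => g l q.1 ≠ g l q.2).card := by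
          simp only [card_filter]
          exact sum_comm
      _ ≤ ∑ _l : Fin (4 * L), m ^ 2 / 4 := by
          refine sum_le_sum fun l _ => ?_
          rw [hP, filter_filter]
          exact differ_le (g l)
      _ = _ := by simp
  have hm : P.card = (m / 2) * ((m - 1) / 2) + m ^ 2 / 4 := by
    rw [hP, pairs_card]
    obtain ⟨r, rfl | rfl⟩ : ∃ r, m = 2 * r ∨ m = 2 * r + 1 := ⟨m / 2, by omega⟩
    · rcases r with _ | r
      · simp
      · have e1 : (2 * (r + 1)) * (2 * (r + 1) - 1) = 2 * ((r + 1) * (2 * r + 1)) := by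
          rw [show 2 * (r + 1) - 1 = 2 * r + 1 by omega]; ring
        have e2 : (2 * (r + 1)) ^ 2 = 4 * ((r + 1) * (r + 1)) := by ring
        rw [show (2 * (r + 1)) / 2 = r + 1 by omega, show (2 * (r + 1) - 1) / 2 = r by omega,
          e1, e2, Nat.mul_div_cancel_left _ (by norm_num), Nat.mul_div_cancel_left _ (by norm_num)]
        ring
    · have e1 : (2 * r + 1) * (2 * r + 1 - 1) = 2 * ((2 * r + 1) * r) := by
        rw [show 2 * r + 1 - 1 = 2 * r by omega]; ring
      have e2 : (2 * r + 1) ^ 2 = 4 * (r * r + r) + 1 := by ring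
      rw [show (2 * r + 1) / 2 = r by omega, show (2 * r + 1 - 1) / 2 = r by omega, e1, e2,
        Nat.mul_div_cancel_left _ (by norm_num), show (4 * (r * r + r) + 1) / 4 = r * r + r by omega]
      ring
  rw [hm] at hsum
  nlinarith

end P040.Geo
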