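import Vale.Agent.P040.Geo.Parity

/-!
# P040, geodesic drawings: the boundary cycle

For a large radius the side of a far point with respect to the line of a pair depends only on its
direction; the `2k²` critical directions cut the circle into gaps.
-/

open Finset Filter Topology

namespace P040.Geo

/-- `a` and `b` are joined inside the disc by a path of cost at most `c` -/
def Link {n : ℕ} (p : Fin n → Pt) (s : Fin n → Bool) (R : ℝ) (c : ℕ) (a b : Pt) : Prop :=
  ∃ l : List Pt, GoodPath p R l ∧ l.head? = some a ∧ l.getLast? = some b ∧ pathCost p s l ≤ c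

/-- the data of a boundary cycle -/
structure Boundary {n m : ℕ} (p : Fin n → Pt) (s : Fin n → Bool) (z : Fin m → Pt) (L : ℕ) where
  R : ℝ
  ang : ℕ → ℝ
  pos : 0 < R
  mono : StrictMono ang
  half : ∀ t, ang (t + L) = ang t + Real.pi
  inP : ∀ i, (p i).1 ^ 2 + (p i).2 ^ 2 < R ^ 2
  inZ : ∀ a, (z a).1 ^ 2 + (z a).2 ^ 2 < R ^ 2
  flip : ∀ t i j, i < j → s i = s j →
    side (p i) (p j) (onCircle R (ang t)) ≠ side (p i) (p j) (-onCircle R (ang t))
  step : ∀ t, Link p s R 1 (onCircle R (ang t)) (onCircle R (ang (t + 1)))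
  ends : ∀ a b, a ≠ b → ∃ (X Y : Pt) (t : ℕ),
    X.1 ^ 2 + X.2 ^ 2 = R ^ 2 ∧ Y.1 ^ 2 + Y.2 ^ 2 = R ^ 2 ∧
    z a ∈ segment ℝ X (z b) ∧ z b ∈ segment ℝ (z a) Y ∧ Good p X Y ∧
    cost p s X Y = lineCost p s (z a) (z b) ∧
    Link p s R 0 X (onCircle R (ang t)) ∧ Link p s R 0 Y (onCircle R (ang (t + L)))

/-- the cross product -/
def crs (d u : Pt) : ℝ := d.1 * u.2 - d.2 * u.1

/-- the unit vector of an angle -/
noncomputable def dir (θ : ℝ) : Pt := (Real.cos θ, Real.sin θ)

theorem crs_dir (a b : ℝ) : crs (dir a) (dir b) = Real.sin (b - a) := by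
  simp only [crs, dir, Real.sin_sub]; ring

theorem area_eq (a b c : Pt) : area a b c = crs (b - a) (c - a) := rfl

/-- a family of far points in the direction `u` -/
def Far (X : ℝ → Pt) (u : Pt) : Prop :=
  Tendsto (fun R => (X R).1 / R) atTop (𝓝 u.1) ∧ Tendsto (fun R => (X R).2 / R) atTop (𝓝 u.2)

theorem far_onCircle (θ : ℝ) : Far (fun R => onCircle R θ) (dir θ) := by
  constructor <;> refine tendsto_const_nhds.congr' ?_ <;>
    filter_upwards [eventually_gt_atTop 0] with R hR <;> simp [onCircle, dir, hR.ne']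

theorem onCircle_norm (R θ : ℝ) : (onCircle R θ).1 ^ 2 + (onCircle R θ).2 ^ 2 = R ^ 2 := by
  have := Real.cos_sq_add_sin_sq θ
  simp only [onCircle]; linear_combination R ^ 2 * this

theorem tendsto_div_self (c : ℝ) : Tendsto (fun R : ℝ => c / R) atTop (𝓝 0) :=
  tendsto_const_nhds.div_atTop tendsto_id

theorem side_eventually {X : ℝ → Pt} {u : Pt} (hX : Far X u) {a b : Pt}
    (h : crs (b - a) u ≠ 0) :
    ∀ᶠ R in atTop, side a b (X R) = decide (0 < crs (b - a) u) := by
  have hlim : Tendsto (fun R => area a b (X R) / R) atTop (𝓝 (crs (b - a) u)) := by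
    have h1 := (hX.2.sub (tendsto_div_self a.2)).const_mul (b.1 - a.1)
    have h2 := (hX.1.sub (tendsto_div_self a.1)).const_mul (b.2 - a.2)
    have h3 := h1.sub h2
    simp only [sub_zero] at h3
    refine h3.congr' ?_
    filter_upwards [eventually_gt_atTop 0] with R hR
    simp only [area]; field_simp
  rcases lt_or_gt_of_ne h with h' | h'
  · filter_upwards [hlim.eventually (eventually_lt_nhds h'), eventually_gt_atTop 0] with R h1 h2
    have : area a b (X R) < 0 := by
      by_contra hc; exact absurd (div_nonneg (not_lt.1 hc) h2.le) (not_le.2 h1)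
    simp [side, not_lt.2 this.le, not_lt.2 h'.le]
  · filter_upwards [hlim.eventually (eventually_gt_nhds h'), eventually_gt_atTop 0] with R h1 h2
    have : 0 < area a b (X R) := by
      by_contra hc; exact absurd (div_nonpos_of_nonpos_of_nonneg (not_lt.1 hc) h2.le) (not_le.2 h1)
    simp [side, this, h']

theorem chord_side_eventually {X Y : ℝ → Pt} {u v : Pt} (hX : Far X u) (hY : Far Y v)
    (h : crs u v ≠ 0) (c : Pt) :
    ∀ᶠ R in atTop, area (X R) (Y R) c ≠ 0 ∧
      side (X R) (Y R) c = decide (0 < crs u v) := by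
  have hlim : Tendsto (fun R => area (X R) (Y R) c / (R * R)) atTop (𝓝 (crs u v)) := by
    have h1 := (hY.1.sub hX.1).mul ((tendsto_div_self c.2).sub hX.2)
    have h2 := (hY.2.sub hX.2).mul ((tendsto_div_self c.1).sub hX.1)
    have h3 := h1.sub h2
    have e : (v.1 - u.1) * (0 - u.2) - (v.2 - u.2) * (0 - u.1) = crs u v := by
      simp only [crs]; ring
    rw [e] at h3
    refine h3.congr' ?_
    filter_upwards [eventually_gt_atTop 0] with R hR
    simp only [area]; field_simp
  rcases lt_or_gt_of_ne h with h' | h'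
  · filter_upwards [hlim.eventually (eventually_lt_nhds h'), eventually_gt_atTop 0] with R h1 h2
    have : area (X R) (Y R) c < 0 := by
      by_contra hc
      exact absurd (div_nonneg (not_lt.1 hc) (mul_nonneg h2.le h2.le)) (not_le.2 h1)
    exact ⟨this.ne, by simp [side, not_lt.2 this.le, not_lt.2 h'.le]⟩
  · filter_upwards [hlim.eventually (eventually_gt_nhds h'), eventually_gt_atTop 0] with R h1 h2
    have : 0 < area (X R) (Y R) c := by
      by_contra hc
      exact absurd (div_nonpos_of_nonpos_of_nonneg (not_lt.1 hc) (mul_nonneg h2.le h2.le))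
        (not_le.2 h1)
    exact ⟨this.ne', by simp [side, this, h']⟩

/-- the pairs of equal sign -/
def spairs {n : ℕ} (s : Fin n → Bool) : Finset (Fin n × Fin n) :=
  univ.filter fun q => q.1 < q.2 ∧ s q.1 = s q.2

variable {n : ℕ} {p : Fin n → Pt} {s : Fin n → Bool}

/-- a far chord only cuts pairs of equal sign whose direction it passes -/
theorem piece_eventually {X Y : ℝ → Pt} {u v : Pt} (hX : Far X u) (hY : Far Y v)
    (h : crs u v ≠ 0) (hu : ∀ q ∈ spairs s, crs (p q.2 - p q.1) u ≠ 0)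
    (hv : ∀ q ∈ spairs s, crs (p q.2 - p q.1) v ≠ 0) (E : Finset (Fin n × Fin n))
    (hE : ∀ q ∈ spairs s,
      decide (0 < crs (p q.2 - p q.1) u) ≠ decide (0 < crs (p q.2 - p q.1) v) → q ∈ E) :
    ∀ᶠ R in atTop, Good p (X R) (Y R) ∧ cost p s (X R) (Y R) ≤ E.card := by
  have h1 := eventually_all.2 fun i => chord_side_eventually hX hY h (p i)
  have h2 := (spairs s).eventually_all.2 fun q hq => side_eventually hX (hu q hq)
  have h3 := (spairs s).eventually_all.2 fun q hq => side_eventually hY (hv q hq)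
  filter_upwards [h1, h2, h3] with R g1 g2 g3
  refine ⟨Or.inr fun i => (g1 i).1, ?_⟩
  unfold cost
  rw [← Set.ncard_coe_finset]
  refine Set.ncard_le_ncard ?_
  rintro q ⟨hlt, hss, hne⟩
  have hsq : s q.1 = s q.2 := hss.1 ((g1 q.1).2.trans (g1 q.2).2.symm)
  have hq : q ∈ spairs s := by simp [spairs, hlt, hsq]
  rw [g2 q hq, g3 q hq] at hne
  exact Finset.mem_coe.2 (hE q hq hne)

theorem spairs_card (k : ℕ) (s : Fin (2 * k + 1) → Bool)
    (hs : (univ.filter fun i => s i = true).card = k + 1) : (spairs s).card = k * k := by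
  set A := univ.filter fun i => s i = true with hA
  set F := univ.filter fun i => ¬ s i = true with hF
  have hFc : F.card = k := by
    have := Finset.card_filter_add_card_filter_not
      (s := (univ : Finset (Fin (2 * k + 1)))) (p := fun i => s i = true)
    rw [Finset.card_univ, Fintype.card_fin, ← hA, ← hF, hs] at this
    omega
  have key : A.offDiag ∪ F.offDiag = spairs s ∪ (spairs s).image Prod.swap := by
    ext ⟨i, j⟩
    simp only [hA, hF, spairs, mem_union, mem_offDiag, mem_filter, mem_univ, true_and, mem_image,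
      Prod.exists, Prod.swap_prod_mk, Prod.mk.injEq, ne_eq]
    constructor
    · intro h
      have hne : i ≠ j := by tauto
      have hsij : s i = s j := by cases hi : s i <;> cases hj : s j <;> simp_all
      rcases lt_or_gt_of_ne hne with hl | hl
      · exact Or.inl ⟨hl, hsij⟩
      · exact Or.inr ⟨j, i, ⟨hl, hsij.symm⟩, rfl, rfl⟩
    · rintro (⟨hl, hsij⟩ | ⟨a, b, ⟨hl, hsij⟩, rfl, rfl⟩)
      · cases hi : s i <;> simp_all [ne_of_lt hl]
      · cases hi : s b <;> simp_all [ne_of_gt hl]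
  have hd : Disjoint (spairs s) ((spairs s).image Prod.swap) := by
    rw [Finset.disjoint_left]
    rintro ⟨i, j⟩ h1 h2
    simp only [spairs, mem_filter, mem_image, Prod.exists, Prod.swap_prod_mk, Prod.mk.injEq,
      mem_univ, true_and] at h1 h2
    obtain ⟨a, b, ⟨hl, -⟩, rfl, rfl⟩ := h2
    exact lt_asymm h1.1 hl
  have hd2 : Disjoint A.offDiag F.offDiag := by
    rw [Finset.disjoint_left]
    rintro ⟨i, j⟩ h1 h2
    simp only [hA, hF, mem_offDiag, mem_filter] at h1 h2
    exact h2.1.2 h1.1.2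
  have h := congrArg Finset.card key
  rw [card_union_of_disjoint hd, card_union_of_disjoint hd2,
    card_image_of_injective _ Prod.swap_injective, offDiag_card, offDiag_card, hs, hFc] at h
  have e1 : (k + 1) * (k + 1) = k * k + 2 * k + 1 := by ring
  have e2 : k ≤ k * k := Nat.le_mul_self k
  omega

theorem exists_polar {d : Pt} (hd : d ≠ 0) :
    ∃ c θ : ℝ, 0 < c ∧ d = (c * Real.cos θ, c * Real.sin θ) ∧ -Real.pi < θ ∧ θ ≤ Real.pi := by
  have hz : (⟨d.1, d.2⟩ : ℂ) ≠ 0 := by
    intro h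
    exact hd (Prod.ext (by simpa using congrArg Complex.re h) (by simpa using congrArg Complex.im h))
  exact ⟨‖(⟨d.1, d.2⟩ : ℂ)‖, Complex.arg ⟨d.1, d.2⟩, norm_pos_iff.2 hz,
    Prod.ext (Complex.norm_mul_cos_arg ⟨d.1, d.2⟩).symm (Complex.norm_mul_sin_arg ⟨d.1, d.2⟩).symm,
    Complex.neg_pi_lt_arg _, Complex.arg_le_pi _⟩

theorem exists_line_angle {d : Pt} (hd : d ≠ 0) :
    ∃ c φ : ℝ, c ≠ 0 ∧ d = (c * Real.cos φ, c * Real.sin φ) ∧ 0 ≤ φ ∧ φ < Real.pi := by
  obtain ⟨c, θ, hc, he, h1, h2⟩ := exists_polar hd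
  have := Real.pi_pos
  rcases lt_or_ge θ 0 with h | h
  · refine ⟨-c, θ + Real.pi, neg_ne_zero.2 hc.ne', ?_, by linarith, by linarith⟩
    simp [he, Real.cos_add_pi, Real.sin_add_pi]
  · rcases lt_or_eq_of_le h2 with h' | h'
    · exact ⟨c, θ, hc.ne', he, h, h'⟩
    · refine ⟨-c, 0, neg_ne_zero.2 hc.ne', ?_, le_rfl, Real.pi_pos⟩
      simp [he, h']

theorem crs_mul (c φ θ : ℝ) :
    crs (c * Real.cos φ, c * Real.sin φ) (dir θ) = c * Real.sin (θ - φ) := by
  simp only [crs, dir, Real.sin_sub]; ring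

theorem sin_ne_zero_of_abs {x : ℝ} (h0 : x ≠ 0) (h : |x| < Real.pi) : Real.sin x ≠ 0 := by
  intro hs
  obtain ⟨h1, h2⟩ := abs_lt.1 h
  exact h0 ((Real.sin_eq_zero_iff_of_lt_of_lt h1 h2).1 hs)

/-- the circle cut into gaps by the critical angles, increasing and `π` periodic -/
structure Crit (p : Fin n → Pt) (s : Fin n → Bool) (L : ℕ) where
  Φ : ℕ → ℝ
  mono : StrictMono Φ
  per : ∀ u, Φ (u + L) = Φ u + Real.pi
  nonneg : ∀ u, 0 ≤ Φ u
  small : Φ 0 < Real.pi
  ev : ℕ → Fin n × Fin n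
  coef : Fin n × Fin n → ℝ
  phi : Fin n × Fin n → ℝ
  coef_ne : ∀ q ∈ spairs s, coef q ≠ 0
  eq : ∀ q ∈ spairs s, p q.2 - p q.1 = (coef q * Real.cos (phi q), coef q * Real.sin (phi q))
  crit : ∀ u, ev u ∈ spairs s ∧ ∃ j : ℤ, Φ u = phi (ev u) + j * Real.pi
  hit : ∀ q ∈ spairs s, ∀ j : ℤ, 0 < phi q + j * Real.pi →
    ∃ u, Φ u = phi q + j * Real.pi ∧ ev u = q

theorem exists_crit (hn3 : 3 ≤ n) (hp : GenPos p) (hL : 0 < (spairs s).card) :
    Nonempty (Crit p s (spairs s).card) := by
  classical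
  have hne : ∀ q ∈ spairs s, p q.2 - p q.1 ≠ 0 := by
    intro q hq h0
    simp only [spairs, mem_filter, mem_univ, true_and] at hq
    obtain ⟨l, -, hl⟩ := Finset.exists_mem_notMem_of_card_lt_card
      (s := ({q.1, q.2} : Finset (Fin n))) (t := univ)
      (Finset.card_le_two.trans_lt (by simp only [Finset.card_univ, Fintype.card_fin]; omega))
    simp only [mem_insert, mem_singleton, not_or] at hl
    refine hp.1 q.1 q.2 l (ne_of_lt hq.1) (Ne.symm hl.2) (Ne.symm hl.1) ?_
    rw [area_eq, h0]; simp [crs]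
  choose c φ hc he h0 hπ using fun q : spairs s => exists_line_angle (hne q.1 q.2)
  have hinj : Function.Injective φ := by
    intro q q' h
    by_contra hne'
    have h1 := q.2
    have h2 := q'.2
    simp only [spairs, mem_filter, mem_univ, true_and] at h1 h2
    refine hp.2 q.1.1 q.1.2 q'.1.1 q'.1.2 h1.1 h2.1 (fun h => hne' (Subtype.ext h)) ?_
    have e1 := congrArg Prod.fst (he q)
    have e2 := congrArg Prod.snd (he q)
    have e3 := congrArg Prod.fst (he q')
    have e4 := congrArg Prod.snd (he q')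
    simp only [Prod.fst_sub, Prod.snd_sub] at e1 e2 e3 e4
    rw [e1, e2, e3, e4, h]; ring
  set Φs : Finset ℝ := (spairs s).attach.image φ with hΦs
  have hcard : Φs.card = (spairs s).card := by
    rw [hΦs, card_image_of_injective _ hinj, card_attach]
  set L := (spairs s).card with hLdef
  let o := Φs.orderEmbOfFin hcard
  have ho : ∀ i, 0 ≤ o i ∧ o i < Real.pi := by
    intro i
    have := Φs.orderEmbOfFin_mem hcard i
    simp only [hΦs, mem_image] at this
    obtain ⟨q, -, hq⟩ := this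
    rw [show o i = φ q from hq.symm]; exact ⟨h0 q, hπ q⟩
  have hmem : ∀ i, ∃ q : spairs s, φ q = o i := by
    intro i
    have := Φs.orderEmbOfFin_mem hcard i
    simp only [hΦs, mem_image] at this
    obtain ⟨q, -, hq⟩ := this
    exact ⟨q, hq⟩
  choose e he' using hmem
  let Φ : ℕ → ℝ := fun u => o ⟨u % L, Nat.mod_lt _ hL⟩ + (u / L : ℕ) * Real.pi
  refine ⟨{
    Φ := Φ
    ev := fun u => (e ⟨u % L, Nat.mod_lt _ hL⟩).1
    coef := fun q => if h : q ∈ spairs s then c ⟨q, h⟩ else 0
    phi := fun q => if h : q ∈ spairs s then φ ⟨q, h⟩ else 0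
    mono := ?_, per := ?_, nonneg := ?_, small := ?_, coef_ne := ?_, eq := ?_, crit := ?_,
    hit := ?_ }⟩
  · apply strictMono_nat_of_lt_succ
    intro u
    have hu := Nat.mod_add_div u L
    have hlt := Nat.mod_lt u hL
    rcases eq_or_ne (u % L + 1) L with h | h
    · have e1 : (u + 1) % L = 0 := by
        rw [show u + 1 = L * (u / L + 1) by rw [Nat.mul_succ]; omega, Nat.mul_mod_right]
      have e2 : (u + 1) / L = u / L + 1 := by
        rw [show u + 1 = L * (u / L + 1) by rw [Nat.mul_succ]; omega, Nat.mul_div_cancel_left _ hL]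
      simp only [Φ, e1, e2]
      push_cast
      linarith [(ho ⟨u % L, hlt⟩).2, (ho ⟨0, hL⟩).1]
    · have e1 : (u + 1) % L = u % L + 1 := by
        rw [show u + 1 = (u % L + 1) + L * (u / L) by omega, Nat.add_mul_mod_self_left,
          Nat.mod_eq_of_lt (by omega)]
      have e2 : (u + 1) / L = u / L := by
        rw [show u + 1 = (u % L + 1) + L * (u / L) by omega, Nat.add_mul_div_left _ _ hL,
          Nat.div_eq_of_lt (by omega), Nat.zero_add]
      have := o.strictMono (show (⟨u % L, hlt⟩ : Fin L) < ⟨(u + 1) % L, Nat.mod_lt _ hL⟩ by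
        simp only [Fin.mk_lt_mk, e1]; omega)
      simp only [Φ, e2]
      linarith
  · intro u
    simp only [Φ, Nat.add_mod_right, Nat.add_div_right u hL]
    push_cast; ring
  · intro u
    exact add_nonneg (ho _).1 (by positivity)
  · simp only [Φ, Nat.zero_mod, Nat.zero_div, Nat.cast_zero, zero_mul, add_zero]
    exact (ho _).2
  · intro q hq; simp only [dif_pos hq]; exact hc _
  · intro q hq; simp only [dif_pos hq]; exact he ⟨q, hq⟩
  · intro u
    refine ⟨(e ⟨u % L, Nat.mod_lt _ hL⟩).2, (u / L : ℕ), ?_⟩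
    simp only [Φ, dif_pos (e ⟨u % L, Nat.mod_lt _ hL⟩).2, Subtype.coe_eta, he']
    rw [Int.cast_natCast]
  · intro q hq j hj
    simp only [dif_pos hq] at hj ⊢
    have hj0 : 0 ≤ j := by
      by_contra hneg
      have hj1 : (j : ℝ) ≤ -1 := by exact_mod_cast (show j ≤ -1 by omega)
      nlinarith [hπ ⟨q, hq⟩, Real.pi_pos, mul_le_mul_of_nonneg_right hj1 Real.pi_pos.le]
    obtain ⟨jn, rfl⟩ := Int.eq_ofNat_of_zero_le hj0
    obtain ⟨i, hi⟩ : ∃ i, o i = φ ⟨q, hq⟩ := by
      have : φ ⟨q, hq⟩ ∈ Set.range o := by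
        rw [Φs.range_orderEmbOfFin hcard, Finset.mem_coe, hΦs, mem_image]
        exact ⟨⟨q, hq⟩, mem_attach _ _, rfl⟩
      exact this
    refine ⟨i.1 + L * jn, ?_, ?_⟩
    · simp only [Φ, Nat.add_mul_mod_self_left, Nat.mod_eq_of_lt i.2,
        Nat.add_mul_div_left _ _ hL, Nat.div_eq_of_lt i.2, Nat.zero_add, Fin.eta, hi]
      push_cast; ring
    · simp only [Nat.add_mul_mod_self_left, Nat.mod_eq_of_lt i.2, Fin.eta]
      have := hinj ((he' i).trans hi)
      rw [this]

namespace Crit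

variable {L : ℕ} (C : Crit p s L)

/-- the middle of a gap -/
noncomputable def mid (t : ℕ) : ℝ := (C.Φ t + C.Φ (t + 1)) / 2

theorem crs_eq {q : Fin n × Fin n} (hq : q ∈ spairs s) (θ : ℝ) :
    crs (p q.2 - p q.1) (dir θ) = C.coef q * Real.sin (θ - C.phi q) := by
  rw [C.eq q hq, crs_mul]

theorem mid_mem (t : ℕ) : C.Φ t < C.mid t ∧ C.mid t < C.Φ (t + 1) := by
  have := C.mono (Nat.lt_succ_self t)
  constructor <;> simp only [mid] <;> linarith

theorem zero {θ : ℝ} (u : ℕ) (hu : θ = C.Φ u) :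
    ∃ q ∈ spairs s, crs (p q.2 - p q.1) (dir θ) = 0 := by
  obtain ⟨hq, j, hj⟩ := C.crit u
  refine ⟨C.ev u, hq, ?_⟩
  rw [C.crs_eq hq, hu, hj, add_sub_cancel_left, Real.sin_int_mul_pi, mul_zero]

theorem gap_le (hL : 0 < L) (t : ℕ) : C.Φ (t + 1) ≤ C.Φ t + Real.pi := by
  rw [← C.per]; exact C.mono.monotone (by omega)

theorem nonzero {t : ℕ} {θ : ℝ} (h1 : C.Φ t < θ) (h2 : θ < C.Φ (t + 1))
    {q : Fin n × Fin n} (hq : q ∈ spairs s) : crs (p q.2 - p q.1) (dir θ) ≠ 0 := by
  rw [C.crs_eq hq]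
  refine mul_ne_zero (C.coef_ne q hq) fun h => ?_
  obtain ⟨j, hj⟩ := Real.sin_eq_zero_iff.1 h
  obtain ⟨u, hu, -⟩ := C.hit q hq j (by linarith [C.nonneg t])
  have e : C.Φ u = θ := by linarith
  rw [← e] at h1 h2
  have := C.mono.lt_iff_lt.1 h1
  have := C.mono.lt_iff_lt.1 h2
  omega

theorem change {t : ℕ} {θ θ' : ℝ} (h1 : C.Φ t < θ) (h2 : θ ≤ θ')
    {q : Fin n × Fin n} (hq : q ∈ spairs s)
    (hne : decide (0 < crs (p q.2 - p q.1) (dir θ)) ≠
      decide (0 < crs (p q.2 - p q.1) (dir θ'))) :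
    ∃ u, t < u ∧ C.Φ u ≤ θ' ∧ θ ≤ C.Φ u ∧ C.ev u = q := by
  rw [C.crs_eq hq, C.crs_eq hq] at hne
  have hcont : ContinuousOn (fun x => C.coef q * Real.sin (x - C.phi q)) (Set.uIcc θ θ') := by
    fun_prop
  have h0 : (0 : ℝ) ∈ Set.uIcc (C.coef q * Real.sin (θ - C.phi q))
      (C.coef q * Real.sin (θ' - C.phi q)) := by
    rw [Set.mem_uIcc]
    simp only [ne_eq, decide_eq_decide] at hne
    by_cases ha : 0 < C.coef q * Real.sin (θ - C.phi q)
    · right
      exact ⟨not_lt.1 fun hb => hne (iff_of_true ha hb), ha.le⟩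
    · left
      refine ⟨not_lt.1 ha, ?_⟩
      by_contra hb
      exact hne (iff_of_false ha fun h => hb h.le)
  obtain ⟨x, hx, hx0⟩ := intermediate_value_uIcc hcont h0
  rw [Set.uIcc_of_le h2] at hx
  obtain ⟨j, hj⟩ := Real.sin_eq_zero_iff.1 ((mul_eq_zero.1 hx0).resolve_left (C.coef_ne q hq))
  obtain ⟨u, hu, hev⟩ := C.hit q hq j (by linarith [C.nonneg t, hx.1])
  have e : C.Φ u = x := by linarith
  exact ⟨u, C.mono.lt_iff_lt.1 (by linarith [hx.1]), by linarith [hx.2], by linarith [hx.1], hev⟩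

/-- a chord inside a gap costs nothing -/
theorem in_gap (hL : 0 < L) {t : ℕ} {θ θ' : ℝ} (h1 : C.Φ t < θ) (h2 : θ < C.Φ (t + 1))
    (h1' : C.Φ t < θ') (h2' : θ' < C.Φ (t + 1)) (hne : θ ≠ θ') {X Y : ℝ → Pt}
    (hX : Far X (dir θ)) (hY : Far Y (dir θ')) :
    ∀ᶠ R in atTop, Good p (X R) (Y R) ∧ cost p s (X R) (Y R) = 0 := by
  have hπ := C.gap_le hL t
  have h := piece_eventually hX hY (p := p) (s := s)
    (by
      rw [crs_dir]
      exact sin_ne_zero_of_abs (sub_ne_zero.2 (Ne.symm hne))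
        (abs_lt.2 ⟨by linarith, by linarith⟩))
    (fun q hq => C.nonzero h1 h2 hq) (fun q hq => C.nonzero h1' h2' hq) ∅ (fun q hq hd => by
      exfalso
      rcases le_total θ θ' with hle | hle
      · obtain ⟨u, h3, h4, -, -⟩ := C.change h1 hle hq hd
        exact absurd (C.mono.lt_iff_lt.1 (lt_of_le_of_lt h4 h2')) (by omega)
      · obtain ⟨u, h3, h4, -, -⟩ := C.change h1' hle hq (Ne.symm hd)
        exact absurd (C.mono.lt_iff_lt.1 (lt_of_le_of_lt h4 h2)) (by omega))
  filter_upwards [h] with R hR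
  exact ⟨hR.1, Nat.le_zero.1 hR.2⟩

/-- neighbouring middles are linked at cost one -/
theorem step_link (hL : 0 < L) (t : ℕ) :
    ∀ᶠ R in atTop, Link p s R 1 (onCircle R (C.mid t)) (onCircle R (C.mid (t + 1))) := by
  have hm := C.mid_mem t
  have hm' := C.mid_mem (t + 1)
  set w := (C.mid t + C.Φ (t + 1)) / 2 with hw
  set w' := (C.Φ (t + 1) + C.mid (t + 1)) / 2 with hw'
  have a1 : C.mid t < w ∧ w < C.Φ (t + 1) := ⟨by rw [hw]; linarith, by rw [hw]; linarith⟩
  have a2 : C.Φ (t + 1) < w' ∧ w' < C.mid (t + 1) := ⟨by rw [hw']; linarith, by rw [hw']; linarith⟩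
  have g1 := C.in_gap hL hm.1 hm.2 (hm.1.trans a1.1) a1.2 a1.1.ne (far_onCircle _) (far_onCircle w)
  have g3 := C.in_gap hL a2.1 (a2.2.trans hm'.2) hm'.1 hm'.2 a2.2.ne (far_onCircle w')
    (far_onCircle _)
  have g2 := piece_eventually (far_onCircle w) (far_onCircle w') (p := p) (s := s)
    (by
      rw [crs_dir]
      refine sin_ne_zero_of_abs (by linarith [a1.2, a2.1] : w' - w ≠ 0) ?_
      rw [abs_of_pos (by linarith [a1.2, a2.1] : 0 < w' - w)]
      have := C.gap_le hL t
      have := C.gap_le hL (t + 1)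
      have e1 : w = (C.Φ t + 3 * C.Φ (t + 1)) / 4 := by rw [hw, Crit.mid]; ring
      have e2 : w' = (3 * C.Φ (t + 1) + C.Φ (t + 1 + 1)) / 4 := by rw [hw', Crit.mid]; ring
      linarith [Real.pi_pos])
    (fun q hq => C.nonzero (hm.1.trans a1.1) a1.2 hq)
    (fun q hq => C.nonzero a2.1 (a2.2.trans hm'.2) hq) {C.ev (t + 1)} (fun q hq hd => by
      obtain ⟨u, h1, h2, -, hev⟩ := C.change (hm.1.trans a1.1) (a1.2.trans a2.1).le hq hd
      have := C.mono.lt_iff_lt.1 (lt_of_le_of_lt h2 (a2.2.trans hm'.2))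
      rw [← hev, show u = t + 1 by omega]
      exact Finset.mem_singleton_self _)
  filter_upwards [g1, g2, g3] with R h1 h2 h3
  refine ⟨[onCircle R (C.mid t), onCircle R w, onCircle R w', onCircle R (C.mid (t + 1))],
    ⟨by simp [h1.1, h2.1, h3.1], fun a ha => ?_⟩, rfl, rfl, ?_⟩
  · simp only [List.mem_cons, List.not_mem_nil, or_false] at ha
    rcases ha with rfl | rfl | rfl | rfl <;> exact (onCircle_norm _ _).le
  · have := h2.2
    simp only [pathCost, h1.2, h3.2, Finset.card_singleton] at this ⊢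
    omega

/-- a far point in a gap is linked to its middle at no cost -/
theorem far_link (hL : 0 < L) {t : ℕ} {θ : ℝ} (h1 : C.Φ t < θ) (h2 : θ < C.Φ (t + 1))
    {X : ℝ → Pt} (hX : Far X (dir θ))
    (hn : ∀ᶠ R in atTop, (X R).1 ^ 2 + (X R).2 ^ 2 = R ^ 2) :
    ∀ᶠ R in atTop, Link p s R 0 (X R) (onCircle R (C.mid t)) := by
  have hm := C.mid_mem t
  obtain ⟨w, hw1, hw2⟩ : ∃ w ∈ Set.Ioo (C.Φ t) (C.Φ (t + 1)), w ∉ ({θ, C.mid t} : Set ℝ) :=
    ((Set.Ioo_infinite (C.mono (Nat.lt_succ_self t))).sdiff (Set.toFinite _)).nonempty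
  simp only [Set.mem_insert_iff, Set.mem_singleton_iff, not_or] at hw2
  have g1 := C.in_gap hL h1 h2 hw1.1 hw1.2 (Ne.symm hw2.1) hX (far_onCircle w)
  have g2 := C.in_gap hL hw1.1 hw1.2 hm.1 hm.2 hw2.2 (far_onCircle w) (far_onCircle _)
  filter_upwards [g1, g2, hn] with R e1 e2 e3
  refine ⟨[X R, onCircle R w, onCircle R (C.mid t)], ⟨by simp [e1.1, e2.1], fun a ha => ?_⟩,
    rfl, rfl, ?_⟩
  · simp only [List.mem_cons, List.not_mem_nil, or_false] at ha
    rcases ha with rfl | rfl | rfl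
    · exact e3.le
    all_goals exact (onCircle_norm _ _).le
  · simp [pathCost, e1.2, e2.2]

theorem gap_of (_hL : 0 < L) {θ : ℝ} (h : C.Φ 0 < θ) (hne : ∀ u, θ ≠ C.Φ u) :
    ∃ t, C.Φ t < θ ∧ θ < C.Φ (t + 1) := by
  classical
  have hex : ∃ u, θ < C.Φ u := by
    obtain ⟨j, hj⟩ := exists_nat_gt (θ / Real.pi)
    have hper : ∀ i : ℕ, C.Φ (L * i) = C.Φ 0 + i * Real.pi := by
      intro i
      induction i with
      | zero => simp
      | succ i ih => rw [Nat.mul_succ, C.per, ih]; push_cast; ring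
    refine ⟨L * j, ?_⟩
    rw [hper, div_lt_iff₀ Real.pi_pos] at *
    linarith [C.nonneg 0]
  have hz : Nat.find hex ≠ 0 := fun h0 => by
    have := Nat.find_spec hex
    rw [h0] at this; linarith
  refine ⟨Nat.find hex - 1, lt_of_le_of_ne ?_ (Ne.symm (hne _)), ?_⟩
  · exact not_lt.1 (Nat.find_min hex (by omega))
  · rw [show Nat.find hex - 1 + 1 = Nat.find hex by omega]; exact Nat.find_spec hex

theorem mid_per (u : ℕ) : C.mid (u + L) = C.mid u + Real.pi := by
  simp only [mid, show u + L + 1 = u + 1 + L by omega, C.per]; ring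

theorem onCircle_mid_per (R : ℝ) : ∀ (i u : ℕ),
    onCircle R (C.mid (u + 2 * L * i)) = onCircle R (C.mid u)
  | 0, u => by simp
  | i + 1, u => by
    rw [show u + 2 * L * (i + 1) = u + 2 * L * i + L + L by ring, C.mid_per, C.mid_per,
      show C.mid (u + 2 * L * i) + Real.pi + Real.pi = C.mid (u + 2 * L * i) + 2 * Real.pi by ring,
      ← onCircle_mid_per R i u]
    simp [onCircle]

end Crit

/-- the two far ends of a line -/
theorem line_ends {a d : Pt} (hd : d ≠ 0) :
    ∃ (ψ : ℝ) (lam mu : ℝ → ℝ), 0 ≤ ψ + Real.pi ∧ (∃ c, 0 < c ∧ d = (c * Real.cos ψ, c * Real.sin ψ)) ∧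
      Far (fun R => a + lam R • d) (dir (ψ + Real.pi)) ∧ Far (fun R => a + mu R • d) (dir ψ) ∧
      ∀ᶠ R in atTop, lam R < 0 ∧ 1 < mu R ∧
        (a + lam R • d).1 ^ 2 + (a + lam R • d).2 ^ 2 = R ^ 2 ∧
        (a + mu R • d).1 ^ 2 + (a + mu R • d).2 ^ 2 = R ^ 2 := by
  obtain ⟨c, ψ, hc, he, h1, -⟩ := exists_polar hd
  set b := a.1 * Real.cos ψ + a.2 * Real.sin ψ with hb
  set e := a.1 ^ 2 + a.2 ^ 2 with he'
  let S : ℝ → ℝ := fun R => Real.sqrt (b ^ 2 - e + R ^ 2)
  have hS : Tendsto (fun R => S R / R) atTop (𝓝 1) := by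
    have h : Tendsto (fun R : ℝ => Real.sqrt (1 + (b ^ 2 - e) / R / R)) atTop (𝓝 1) := by
      have := ((tendsto_div_self (b ^ 2 - e)).div_atTop tendsto_id).const_add (1 : ℝ)
      simpa using this.sqrt
    refine h.congr' ?_
    filter_upwards [eventually_gt_atTop 0] with R hR
    rw [show S R / R = S R / Real.sqrt (R ^ 2) by rw [Real.sqrt_sq hR.le],
      ← Real.sqrt_div' _ (sq_nonneg R)]
    congr 1; field_simp; ring
  refine ⟨ψ, fun R => (-b - S R) / c, fun R => (-b + S R) / c, by linarith, ⟨c, hc, he⟩,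
    ?_, ?_, ?_⟩
  · have hl : Tendsto (fun R => (-b - S R) / R) atTop (𝓝 (0 - 1)) := by
      refine ((tendsto_div_self (-b)).sub hS).congr fun R => ?_
      rw [sub_div]
    constructor
    · have := (tendsto_div_self a.1).add (hl.mul_const (Real.cos ψ))
      rw [show (0 : ℝ) + (0 - 1) * Real.cos ψ = (dir (ψ + Real.pi)).1 by
        simp [dir, Real.cos_add_pi]] at this
      refine this.congr fun R => ?_
      simp only [he, Prod.fst_add, Prod.smul_fst, smul_eq_mul]; field_simp
    · have := (tendsto_div_self a.2).add (hl.mul_const (Real.sin ψ))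
      rw [show (0 : ℝ) + (0 - 1) * Real.sin ψ = (dir (ψ + Real.pi)).2 by
        simp [dir, Real.sin_add_pi]] at this
      refine this.congr fun R => ?_
      simp only [he, Prod.snd_add, Prod.smul_snd, smul_eq_mul]; field_simp
  · have hl : Tendsto (fun R => (-b + S R) / R) atTop (𝓝 (0 + 1)) := by
      refine ((tendsto_div_self (-b)).add hS).congr fun R => ?_
      rw [add_div]
    constructor
    · have := (tendsto_div_self a.1).add (hl.mul_const (Real.cos ψ))
      rw [show (0 : ℝ) + (0 + 1) * Real.cos ψ = (dir ψ).1 by simp [dir]] at this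
      refine this.congr fun R => ?_
      simp only [he, Prod.fst_add, Prod.smul_fst, smul_eq_mul]; field_simp
    · have := (tendsto_div_self a.2).add (hl.mul_const (Real.sin ψ))
      rw [show (0 : ℝ) + (0 + 1) * Real.sin ψ = (dir ψ).2 by simp [dir]] at this
      refine this.congr fun R => ?_
      simp only [he, Prod.snd_add, Prod.smul_snd, smul_eq_mul]; field_simp
  · have hbig : Tendsto S atTop atTop :=
      Real.tendsto_sqrt_atTop.comp (tendsto_atTop_add_const_left _ _
        (tendsto_pow_atTop two_ne_zero))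
    filter_upwards [hbig.eventually (eventually_gt_atTop (|b| + c)),
      (tendsto_pow_atTop (α := ℝ) two_ne_zero).eventually (eventually_gt_atTop e)] with R hR hR2
    have hs : S R ^ 2 = b ^ 2 - e + R ^ 2 := Real.sq_sqrt (by nlinarith [sq_nonneg b])
    have hab := abs_le.1 (le_refl |b|)
    refine ⟨div_neg_of_neg_of_pos (by linarith) hc, (one_lt_div hc).2 (by linarith), ?_, ?_⟩
    all_goals
      simp only [he, Prod.fst_add, Prod.snd_add, Prod.smul_fst, Prod.smul_snd, smul_eq_mul]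
      rw [← mul_assoc, ← mul_assoc, div_mul_cancel₀ _ hc.ne']
    · linear_combination ((-b - S R) ^ 2) * Real.cos_sq_add_sin_sq ψ + hs
    · linear_combination ((-b + S R) ^ 2) * Real.cos_sq_add_sin_sq ψ + hs

theorem exists_boundary (k : ℕ) (hk : 0 < k) (p : Fin (2 * k + 1) → Pt)
    (s : Fin (2 * k + 1) → Bool) (hp : GenPos p)
    (hs : (univ.filter fun i => s i = true).card = k + 1) {m : ℕ} (z : Fin m → Pt)
    (hz : GenWrt p z) : Nonempty (Boundary p s z (k * k)) := by
  classical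
  have hcard := spairs_card k s hs
  have hL : 0 < k * k := Nat.mul_pos hk hk
  obtain ⟨C⟩ : Nonempty (Crit p s (k * k)) := hcard ▸ exists_crit (by omega) hp (hcard ▸ hL)
  have hflip : ∀ t, ∀ᶠ R in atTop, ∀ q ∈ spairs s, side (p q.1) (p q.2) (onCircle R (C.mid t)) ≠
      side (p q.1) (p q.2) (-onCircle R (C.mid t)) := by
    intro t
    refine (spairs s).eventually_all.2 fun q hq => ?_
    have h0 := C.nonzero (C.mid_mem t).1 (C.mid_mem t).2 hq
    have h0' : crs (p q.2 - p q.1) (-dir (C.mid t)) ≠ 0 := by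
      intro h; apply h0; simp only [crs, Prod.fst_neg, Prod.snd_neg] at h ⊢; linarith
    have hfar : Far (fun R => -onCircle R (C.mid t)) (-dir (C.mid t)) := by
      obtain ⟨f1, f2⟩ := far_onCircle (C.mid t)
      exact ⟨by simpa [neg_div] using f1.neg, by simpa [neg_div] using f2.neg⟩
    filter_upwards [side_eventually (far_onCircle _) h0, side_eventually hfar h0'] with R e1 e2
    rw [e1, e2]
    simp only [crs, Prod.fst_neg, Prod.snd_neg, ne_eq] at h0 ⊢
    intro hd
    have hiff := decide_eq_decide.1 hd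
    rcases lt_or_gt_of_ne h0 with h | h
    · have := hiff.2 (by linarith); linarith
    · have := hiff.1 h; linarith
  have hends : ∀ a b, a ≠ b → ∀ᶠ R in atTop, ∃ (X Y : Pt) (t : ℕ),
      X.1 ^ 2 + X.2 ^ 2 = R ^ 2 ∧ Y.1 ^ 2 + Y.2 ^ 2 = R ^ 2 ∧
      z a ∈ segment ℝ X (z b) ∧ z b ∈ segment ℝ (z a) Y ∧ Good p X Y ∧
      cost p s X Y = lineCost p s (z a) (z b) ∧
      Link p s R 0 X (onCircle R (C.mid t)) ∧ Link p s R 0 Y (onCircle R (C.mid (t + k * k))) := by
    intro a b hab
    have harea : ∀ i, area (z a) (z b) (p i) ≠ 0 := fun i => hz.1 a b i hab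
    have hdne : z b - z a ≠ 0 := by
      intro h0
      refine harea 0 ?_
      rw [area_eq, h0]; simp [crs]
    obtain ⟨ψ, lam, mu, hψ, ⟨c, hc, he⟩, hFX, hFY, hev⟩ := line_ends (a := z a) hdne
    have hgen : ∀ i j, i ≠ j → crs (p j - p i) (dir ψ) ≠ 0 := by
      intro i j hij h
      refine hz.2 a b i j hab hij ?_
      have e1 := congrArg Prod.fst he
      have e2 := congrArg Prod.snd he
      simp only [Prod.fst_sub, Prod.snd_sub] at e1 e2
      simp only [crs, dir, Prod.fst_sub, Prod.snd_sub] at h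
      rw [e1, e2]; linear_combination (-c) * h
    have hpi := Real.pi_pos
    set θ := ψ + Real.pi + 2 * Real.pi with hθ
    have hdir : dir θ = dir (ψ + Real.pi) := by simp [dir, hθ]
    have hneg : dir (ψ + Real.pi) = -dir ψ := by
      simp [dir, Real.cos_add_pi, Real.sin_add_pi]
    have hθne : ∀ u, θ ≠ C.Φ u := by
      intro u hu
      obtain ⟨q, hq, hq0⟩ : ∃ q ∈ spairs s, crs (p q.2 - p q.1) (dir θ) = 0 := C.zero u hu
      have hlt : q.1 < q.2 := (Finset.mem_filter.1 hq).2.1
      apply hgen q.1 q.2 hlt.ne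
      rw [hdir, hneg] at hq0
      simp only [crs, Prod.fst_neg, Prod.snd_neg] at hq0 ⊢
      linarith
    obtain ⟨t, ht1, ht2⟩ := C.gap_of hL (by linarith [C.small]) hθne
    have hY1 : C.Φ (t + k * k) < θ + Real.pi ∧ θ + Real.pi < C.Φ (t + k * k + 1) := by
      rw [show t + k * k + 1 = t + 1 + k * k by omega, C.per, C.per]
      constructor <;> linarith
    have hFY' : Far (fun R => z a + mu R • (z b - z a)) (dir (θ + Real.pi)) := by
      have : dir (θ + Real.pi) = dir ψ := by
        rw [hθ, show ψ + Real.pi + 2 * Real.pi + Real.pi = ψ + (2 : ℕ) * (2 * Real.pi) by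
          push_cast; ring]
        simp only [dir, Real.cos_add_nat_mul_two_pi, Real.sin_add_nat_mul_two_pi]
      rw [this]; exact hFY
    have g1 := C.far_link hL ht1 ht2 (hdir ▸ hFX) (hev.mono fun R h => h.2.2.1)
    have g2 := C.far_link hL hY1.1 hY1.2 hFY' (hev.mono fun R h => h.2.2.2)
    have g3 : ∀ᶠ R in atTop, ∀ q : Fin (2 * k + 1) × Fin (2 * k + 1), q.1 < q.2 →
        side (p q.1) (p q.2) (z a + lam R • (z b - z a)) ≠
          side (p q.1) (p q.2) (z a + mu R • (z b - z a)) := by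
      refine eventually_all.2 fun q => ?_
      by_cases hlt : q.1 < q.2
      · have h0 := hgen q.1 q.2 hlt.ne
        have h0' : crs (p q.2 - p q.1) (dir (ψ + Real.pi)) ≠ 0 := by
          intro h; apply h0
          rw [hneg] at h
          simp only [crs, Prod.fst_neg, Prod.snd_neg] at h ⊢; linarith
        filter_upwards [side_eventually hFX h0', side_eventually hFY h0] with R e1 e2 _
        rw [e1, e2]
        simp only [hneg, crs, Prod.fst_neg, Prod.snd_neg, ne_eq] at h0 ⊢
        intro hd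
        have hiff := decide_eq_decide.1 hd
        rcases lt_or_gt_of_ne h0 with h | h
        · have := hiff.1 (by linarith); linarith
        · have := hiff.2 h; linarith
      · exact Eventually.of_forall fun R h => absurd h hlt
    filter_upwards [g1, g2, g3, hev] with R e1 e2 e3 ⟨hl, hmu, nX, nY⟩
    set X := z a + lam R • (z b - z a) with hXdef
    set Y := z a + mu R • (z b - z a) with hYdef
    have hsc : ∀ v, area X Y v = (mu R - lam R) * area (z a) (z b) v := by
      intro v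
      simp only [area, hXdef, hYdef, Prod.fst_add, Prod.snd_add, Prod.smul_fst, Prod.smul_snd,
        Prod.fst_sub, Prod.snd_sub, smul_eq_mul]
      ring
    have hpos : 0 < mu R - lam R := by linarith
    have hside : ∀ v, side X Y v = side (z a) (z b) v := fun v => by
      simp only [side, hsc, mul_pos_iff_of_pos_left hpos]
    refine ⟨X, Y, t, nX, nY, ?_, ?_, Or.inr fun i => ?_, ?_, e1, e2⟩
    · have hd : (1 : ℝ) - lam R ≠ 0 := by linarith
      refine ⟨1 / (1 - lam R), -lam R / (1 - lam R), div_nonneg zero_le_one (by linarith),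
        div_nonneg (by linarith) (by linarith), by field_simp; ring, ?_⟩
      refine Prod.ext ?_ ?_ <;>
        simp only [hXdef, Prod.fst_add, Prod.snd_add, Prod.smul_fst, Prod.smul_snd, Prod.fst_sub,
          Prod.snd_sub, smul_eq_mul] <;> field_simp <;> ring
    · have hd : mu R ≠ 0 := by linarith
      refine ⟨1 - 1 / mu R, 1 / mu R, sub_nonneg.2 ((div_le_one (by linarith)).2 hmu.le),
        div_nonneg zero_le_one (by linarith), by ring, ?_⟩
      refine Prod.ext ?_ ?_ <;>
        simp only [hYdef, Prod.fst_add, Prod.snd_add, Prod.smul_fst, Prod.smul_snd, Prod.fst_sub,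
          Prod.snd_sub, smul_eq_mul] <;> field_simp <;> ring
    · rw [hsc]; exact mul_ne_zero hpos.ne' (harea i)
    · unfold cost lineCost
      congr 1
      ext q
      simp only [Set.mem_ofPred_eq, Cut, SameSide, hside]
      exact ⟨fun h => ⟨h.1, h.2.1⟩, fun h => ⟨h.1, h.2, e3 q h.1⟩⟩
  have hbig : ∀ x : Pt, ∀ᶠ R in atTop, x.1 ^ 2 + x.2 ^ 2 < R ^ 2 := fun x =>
    (tendsto_pow_atTop (α := ℝ) two_ne_zero).eventually (eventually_gt_atTop _)
  obtain ⟨R, hR0, hRp, hRz, hRf, hRs, hRe⟩ := (eventually_gt_atTop (0 : ℝ)).and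
    ((eventually_all.2 fun i => hbig (p i)).and ((eventually_all.2 fun a => hbig (z a)).and
    (((range (2 * (k * k))).eventually_all.2 fun t _ => hflip t).and
    (((range (2 * (k * k))).eventually_all.2 fun t _ => C.step_link hL t).and
      (eventually_all.2 fun a => eventually_all.2 fun b =>
        show ∀ᶠ R in atTop, a ≠ b → ∃ (X Y : Pt) (t : ℕ),
          X.1 ^ 2 + X.2 ^ 2 = R ^ 2 ∧ Y.1 ^ 2 + Y.2 ^ 2 = R ^ 2 ∧
          z a ∈ segment ℝ X (z b) ∧ z b ∈ segment ℝ (z a) Y ∧ Good p X Y ∧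
          cost p s X Y = lineCost p s (z a) (z b) ∧
          Link p s R 0 X (onCircle R (C.mid t)) ∧
          Link p s R 0 Y (onCircle R (C.mid (t + k * k))) from by
          by_cases hab : a = b
          · exact Eventually.of_forall fun R h => absurd hab h
          · filter_upwards [hends a b hab] with R h _ using h))))) |>.exists
  have hred : ∀ t, ∃ u < 2 * (k * k), ∀ d,
      onCircle R (C.mid (t + d)) = onCircle R (C.mid (u + d)) := by
    intro t
    refine ⟨t % (2 * (k * k)), Nat.mod_lt _ (by omega), fun d => ?_⟩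
    conv_lhs => rw [← Nat.mod_add_div t (2 * (k * k))]
    rw [Nat.add_right_comm, C.onCircle_mid_per]
  refine ⟨{
    R := R, ang := C.mid, pos := hR0, half := C.mid_per, inP := hRp, inZ := hRz,
    mono := ?_, flip := ?_, step := ?_, ends := fun a b hab => hRe a b hab }⟩
  · exact strictMono_nat_of_lt_succ fun t => (C.mid_mem t).2.trans (C.mid_mem (t + 1)).1
  · intro t i j hij hsij
    obtain ⟨u, hu, he⟩ := hred t
    have e := he 0
    simp only [Nat.add_zero] at e
    rw [e]
    exact hRf u (mem_range.2 hu) (i, j) (by simp [spairs, hij, hsij])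
  · intro t
    obtain ⟨u, hu, he⟩ := hred t
    have e := he 0
    simp only [Nat.add_zero] at e
    rw [e, he 1]
    exact hRs u (mem_range.2 hu)

end P040.Geo
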