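import Mathlib

/-!
# P040, geodesic drawings: definitions in a chart

The class `B` is given in an affine chart by points `p` with signs `s` (the vertex is
`± (p, 1)`). `Cut` says that the segment `[a, b]` of the chart crosses an exterior arc of the pair
`i, j`, the part of its great circle on which the rotation around a moving point changes.
-/

open Finset

namespace P040.Geo

/-- points of the chart -/
abbrev Pt : Type := ℝ × ℝ

/-- twice the signed area of the triangle `abc` -/
def area (a b c : Pt) : ℝ := (b.1 - a.1) * (c.2 - a.2) - (b.2 - a.2) * (c.1 - a.1)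

/-- the side of `c` with respect to the line `ab` -/
noncomputable def side (a b c : Pt) : Bool := decide (0 < area a b c)

variable {n : ℕ}

/-- `i, j` lie on the same signed side of the line `ab` -/
def SameSide (p : Fin n → Pt) (s : Fin n → Bool) (a b : Pt) (i j : Fin n) : Prop :=
  (side a b (p i) = side a b (p j) ↔ s i = s j)

/-- the segment `ab` crosses an exterior arc of the pair `i, j` -/
def Cut (p : Fin n → Pt) (s : Fin n → Bool) (a b : Pt) (i j : Fin n) : Prop :=
  SameSide p s a b i j ∧ side (p i) (p j) a ≠ side (p i) (p j) b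

/-- the number of exterior arcs crossed by the segment `ab` -/
noncomputable def cost (p : Fin n → Pt) (s : Fin n → Bool) (a b : Pt) : ℕ :=
  {q : Fin n × Fin n | q.1 < q.2 ∧ Cut p s a b q.1 q.2}.ncard

/-- the number of exterior arcs crossed by the whole line `ab` -/
noncomputable def lineCost (p : Fin n → Pt) (s : Fin n → Bool) (a b : Pt) : ℕ :=
  {q : Fin n × Fin n | q.1 < q.2 ∧ SameSide p s a b q.1 q.2}.ncard

/-- a segment through none of the points `p` -/
def Good (p : Fin n → Pt) (a b : Pt) : Prop := a = b ∨ ∀ i, area a b (p i) ≠ 0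

/-- the cost of a polygonal path -/
noncomputable def pathCost (p : Fin n → Pt) (s : Fin n → Bool) : List Pt → ℕ
  | [] => 0
  | [_] => 0
  | a :: b :: l => cost p s a b + pathCost p s (b :: l)

/-- a path through none of the points `p`, inside the disc of radius `R` -/
def GoodPath (p : Fin n → Pt) (R : ℝ) (l : List Pt) : Prop :=
  l.IsChain (Good p) ∧ ∀ a ∈ l, a.1 ^ 2 + a.2 ^ 2 ≤ R ^ 2

/-- general position of the marked points `p`: no three on a line, no two pairs spanning
parallel lines -/
def GenPos (p : Fin n → Pt) : Prop :=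
  (∀ i j l, i ≠ j → j ≠ l → i ≠ l → area (p i) (p j) (p l) ≠ 0) ∧
  ∀ i j u v, i < j → u < v → (i, j) ≠ (u, v) →
    ((p j).1 - (p i).1) * ((p v).2 - (p u).2) ≠ ((p j).2 - (p i).2) * ((p v).1 - (p u).1)

/-- the points `z` are in general position with respect to `p` -/
def GenWrt {m : ℕ} (p : Fin n → Pt) (z : Fin m → Pt) : Prop :=
  (∀ a b i, a ≠ b → area (z a) (z b) (p i) ≠ 0) ∧
  ∀ a b i j, a ≠ b → i ≠ j →
    ((z b).1 - (z a).1) * ((p j).2 - (p i).2) ≠ ((z b).2 - (z a).2) * ((p j).1 - (p i).1)

end P040.Geo
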