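import Vale.Agent.P040.Geo.Code
import Vale.Agent.P040.Geo.Count
import Vale.Agent.P040.SymSphere

/-!
# P040: Zarankiewicz's bound for all geodesic spherical drawings of `K_{m,n}`
-/

open Finset

namespace P040.Geo

open Vale.Agent.P040 (Vec det3 ArcsCross crossingPairs)

/-- general position of the vertices: no great circle through three of them -/
def SphereGenPos {ι : Type*} (v : ι → Vec) : Prop :=
  ∀ a b c, a ≠ b → b ≠ c → a ≠ c → det3 (v a) (v b) (v c) ≠ 0

/-- the odd case -/
theorem odd_case (m k : ℕ) (A : Fin m → Vec) (B : Fin (2 * k + 1) → Vec)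
    (h : SphereGenPos (Sum.elim A B)) :
    (m / 2) * ((m - 1) / 2) * (k * k) ≤ (crossingPairs A B).ncard := by
  classical
  rcases Nat.eq_zero_or_pos k with rfl | hk
  · simp
  have hbbb : ∀ i j l, i ≠ j → j ≠ l → i ≠ l → det3 (B i) (B j) (B l) ≠ 0 := fun i j l h1 h2 h3 =>
    h (.inr i) (.inr j) (.inr l) (by simpa) (by simpa) (by simpa)
  have habi : ∀ a b i, a ≠ b → det3 (A a) (A b) (B i) ≠ 0 := fun a b i h1 =>
    h (.inl a) (.inl b) (.inr i) (by simpa) (by simp) (by simp)
  have haij : ∀ a i j, i ≠ j → det3 (A a) (B i) (B j) ≠ 0 := fun a i j h1 =>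
    h (.inl a) (.inr i) (.inr j) (by simp) (by simpa) (by simp)
  have hthird : ∀ i j : Fin (2 * k + 1), ∃ l, l ≠ i ∧ l ≠ j := by
    intro i j
    obtain ⟨l, hl⟩ := (({i, j} : Finset (Fin (2 * k + 1)))ᶜ).card_pos.1 (by
      rw [card_compl, Fintype.card_fin]
      have := card_le_two (a := i) (b := j)
      omega)
    exact ⟨l, by simpa using hl⟩
  have hind : ∀ i j, i ≠ j → ∀ a b : ℝ, a • B i + b • B j = 0 → a = 0 ∧ b = 0 := by
    intro i j hij a b h0
    obtain ⟨l, h1, h2⟩ := hthird i j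
    exact eq_zero_of_comb a b _ _ _ (hbbb i j l hij h2.symm h1.symm) h0
  have hz3 : ∀ x y : Vec, det3 x y 0 = 0 ∧ det3 0 x y = 0 := fun x y => by simp [det3]
  have hBne : ∀ i, B i ≠ 0 := fun i hi => by
    obtain ⟨j, hj, -⟩ := hthird i i
    obtain ⟨l, h1, h2⟩ := hthird i j
    exact hbbb i j l hj.symm h2.symm h1.symm (by rw [hi]; exact (hz3 _ _).2)
  have hAne : ∀ a, A a ≠ 0 := fun a ha => by
    obtain ⟨j, hj, -⟩ := hthird 0 0
    exact haij a 0 j hj.symm (by rw [ha]; exact (hz3 _ _).2)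
  let v : Fin m ⊕ Fin (2 * k + 1) → Vec := Sum.elim A B
  set W : Finset Vec := ((univ : Finset ((Fin m ⊕ Fin (2 * k + 1)) × (Fin m ⊕ Fin (2 * k + 1)) ×
    (Fin m ⊕ Fin (2 * k + 1)) × (Fin m ⊕ Fin (2 * k + 1)))).image
      fun q => meet (v q.1) (v q.2.1) (v q.2.2.1) (v q.2.2.2)).filter (fun w => w ≠ 0) ∪
    univ.image A with hW
  obtain ⟨h', hh0, hhW, hhB, hcard⟩ := exists_chart k B hBne hind W (by
    intro w hw
    simp only [hW, mem_union, mem_filter, mem_image, mem_univ, true_and] at hw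
    rcases hw with hw | ⟨a, rfl⟩
    · exact hw.2
    · exact hAne a)
  have hhA : ∀ a, hf h' (A a) ≠ 0 := fun a => hhW _ (by simp [hW])
  have hmeet : ∀ x y u w, meet (v x) (v y) (v u) (v w) ≠ 0 →
      hf h' (meet (v x) (v y) (v u) (v w)) ≠ 0 := fun x y u w hne => hhW _ (by
    simp only [hW, mem_union, mem_filter, mem_image, mem_univ, true_and]
    exact Or.inl ⟨⟨(x, y, u, w), rfl⟩, hne⟩)
  have har : ∀ a b c : Vec, hf h' a ≠ 0 → hf h' b ≠ 0 → hf h' c ≠ 0 → det3 a b c ≠ 0 →
      area (chart h' a) (chart h' b) (chart h' c) ≠ 0 := fun a b c ha hb hc hd h0 => by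
    have := det_chart h' a b c ha hb hc
    rw [h0, mul_zero] at this
    exact mul_ne_zero hh0 hd this
  have hpar : ∀ a b c d : Vec, hf h' a ≠ 0 → hf h' b ≠ 0 → hf h' c ≠ 0 → hf h' d ≠ 0 →
      hf h' (meet a b c d) ≠ 0 →
      ((chart h' b).1 - (chart h' a).1) * ((chart h' d).2 - (chart h' c).2) ≠
        ((chart h' b).2 - (chart h' a).2) * ((chart h' d).1 - (chart h' c).1) := by
    intro a b c d ha hb hc hd hne h0
    have := par_chart h' a b c d ha hb hc hd
    rw [h0, sub_self, mul_zero] at this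
    exact mul_ne_zero hh0 hne this
  have hp : GenPos fun i => chart h' (B i) := by
    refine ⟨fun i j l h1 h2 h3 => har _ _ _ (hhB i) (hhB j) (hhB l) (hbbb i j l h1 h2 h3),
      fun i j u w hij huw hne => hpar _ _ _ _ (hhB i) (hhB j) (hhB u) (hhB w) ?_⟩
    refine hmeet (.inr i) (.inr j) (.inr u) (.inr w) fun h0 => ?_
    rw [meet_eq] at h0
    simp only [v, Sum.elim_inr] at h0
    have h1 := hind u w huw.ne (det3 (B i) (B j) (B w)) (-det3 (B i) (B j) (B u))
      (by rw [neg_smul, ← sub_eq_add_neg]; exact h0)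
    have hnot : (u ≠ i ∧ u ≠ j) ∨ (w ≠ i ∧ w ≠ j) := by
      by_contra hcon
      simp only [not_or, not_and_or, not_not] at hcon
      rcases hcon with ⟨rfl | rfl, rfl | rfl⟩ <;>
        first
          | exact hne rfl
          | exact lt_irrefl _ huw
          | exact lt_asymm hij huw
    rcases hnot with ⟨e1, e2⟩ | ⟨e1, e2⟩
    · exact hbbb i j u hij.ne e2.symm e1.symm (neg_eq_zero.1 h1.2)
    · exact hbbb i j w hij.ne e2.symm e1.symm h1.1
  have hz : GenWrt (fun i => chart h' (B i)) fun a => chart h' (A a) := by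
    refine ⟨fun a b i hab => har _ _ _ (hhA a) (hhA b) (hhB i) (habi a b i hab),
      fun a b i j hab hij => hpar _ _ _ _ (hhA a) (hhA b) (hhB i) (hhB j) ?_⟩
    refine hmeet (.inl a) (.inl b) (.inr i) (.inr j) fun h0 => ?_
    rw [meet_eq] at h0
    simp only [v, Sum.elim_inr, Sum.elim_inl] at h0
    exact habi a b j hab (hind i j hij (det3 (A a) (A b) (B j)) (-det3 (A a) (A b) (B i))
      (by rw [neg_smul, ← sub_eq_add_neg]; exact h0)).1
  obtain ⟨f, hf'⟩ := exists_code k (fun i => chart h' (B i)) (fun i => sgn h' (B i)) hp hcard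
    (fun a => chart h' (A a)) hz
  exact (sum_code m (k * k) _ _ _ (fun a => sgn h' (A a)) f hf').trans
    (card_meets_le A B h' hh0 hhA hhB habi haij)

theorem geodesic_bound (m n : ℕ) (A : Fin m → Vec) (B : Fin n → Vec)
    (h : SphereGenPos (Sum.elim A B)) :
    (m / 2) * ((m - 1) / 2) * ((n / 2) * ((n - 1) / 2)) ≤ (crossingPairs A B).ncard := by
  classical
  obtain ⟨k, rfl | rfl⟩ : ∃ k, n = 2 * k ∨ n = 2 * k + 1 := ⟨n / 2, by omega⟩
  swap
  · rw [show (2 * k + 1) / 2 = k by omega, show (2 * k + 1 - 1) / 2 = k by omega]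
    exact odd_case m k A B h
  rcases k with _ | k
  · simp
  set C := (crossingPairs A B).toFinite.toFinset with hC
  have hsub : ∀ d : Fin (2 * k + 2), (m / 2) * ((m - 1) / 2) * (k * k) ≤
      (C.filter fun e => ∀ x ∈ e, x.2 ≠ d).card := by
    intro d
    have hd : SphereGenPos (Sum.elim A (B ∘ d.succAbove)) := by
      intro a b c h1 h2 h3
      have hinj : Function.Injective
          (Sum.map id d.succAbove : Fin m ⊕ Fin (2 * k + 1) → Fin m ⊕ Fin (2 * k + 2)) :=
        Function.Injective.sumMap Function.injective_id Fin.succAbove_right_injective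
      have := h _ _ _ (hinj.ne h1) (hinj.ne h2) (hinj.ne h3)
      cases a <;> cases b <;> cases c <;> simpa using this
    refine (odd_case m k A _ hd).trans ?_
    rw [← Set.ncard_coe_finset]
    refine Set.ncard_le_ncard_of_injOn (Sym2.map (Prod.map id d.succAbove)) ?_ ?_ (Set.toFinite _)
    · rintro e ⟨x, y, rfl, hxy, hc⟩
      simp only [coe_filter, hC, Set.Finite.mem_toFinset, Set.mem_setOf_eq, Sym2.map_mk]
      refine ⟨⟨_, _, rfl, ?_, hc⟩, ?_⟩
      · intro e
        simp only [Prod.map, Prod.mk.injEq, id] at e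
        exact hxy (Prod.ext e.1 (Fin.succAbove_right_injective e.2))
      · intro w hw
        rcases Sym2.mem_iff.1 hw with rfl | rfl <;> exact Fin.succAbove_ne _ _
    · exact (Sym2.map.injective
        (Function.Injective.prodMap Function.injective_id Fin.succAbove_right_injective)).injOn
  have hsum := sum_le_sum fun d (_ : d ∈ (univ : Finset (Fin (2 * k + 2)))) => hsub d
  simp only [sum_const, card_univ, Fintype.card_fin, smul_eq_mul, card_filter] at hsum
  rw [sum_comm] at hsum
  have hmul : ∀ e ∈ C, (∑ d : Fin (2 * k + 2), if ∀ x ∈ e, x.2 ≠ d then 1 else 0) ≤ 2 * k := by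
    intro e he
    simp only [hC, Set.Finite.mem_toFinset] at he
    obtain ⟨x, y, rfl, hxy, hc⟩ := he
    have hne : x.2 ≠ y.2 := by
      intro he2
      rw [he2] at hc
      by_cases hxa : x.1 = y.1
      · exact hxy (Prod.ext hxa he2)
      · exact not_cross_same (A x.1) (B y.2) (A y.1)
          (h (.inl x.1) (.inl y.1) (.inr y.2) (by simpa) (by simp) (by simp)) hc
    rw [← card_filter]
    calc (univ.filter fun d => ∀ w ∈ s(x, y), w.2 ≠ d).card
        ≤ (({x.2, y.2} : Finset (Fin (2 * k + 2)))ᶜ).card := by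
          refine card_le_card fun d hd => ?_
          simp only [mem_filter, mem_univ, true_and] at hd
          simp [Ne.symm (hd x (Sym2.mem_mk_left _ _)), Ne.symm (hd y (Sym2.mem_mk_right _ _))]
      _ = 2 * k := by rw [card_compl, card_pair hne, Fintype.card_fin]; omega
  have hC' := hsum.trans (sum_le_sum hmul)
  rw [sum_const, smul_eq_mul] at hC'
  have hCc : C.card = (crossingPairs A B).ncard := (Set.ncard_eq_toFinset_card _ _).symm
  rw [hCc] at hC'
  rw [show 2 * (k + 1) / 2 = k + 1 by omega, show (2 * (k + 1) - 1) / 2 = k by omega]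
  rcases Nat.eq_zero_or_pos k with rfl | hk
  · simp
  refine Nat.le_of_mul_le_mul_right ?_ (show 0 < 2 * k by omega)
  calc (m / 2) * ((m - 1) / 2) * ((k + 1) * k) * (2 * k)
      = (2 * k + 2) * ((m / 2) * ((m - 1) / 2) * (k * k)) := by ring
    _ ≤ _ := hC'

end P040.Geo
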