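import Vale.Agent.P040.Geo.Defs
import Vale.Agent.P040.SymSphere

/-!
# P040, geodesic drawings: parity lemmas (planar topology by counting)

The parity of the number of crossings of two segments is read off the four vertical rays at their
ends. Summed over two polygonal paths only the ends remain.
-/

open Finset

namespace P040.Geo

/-- point of the circle of radius `R` -/
noncomputable def onCircle (R α : ℝ) : Pt := (R * Real.cos α, R * Real.sin α)

/-- consecutive pairs of a list -/
def segs (l : List Pt) : List (Pt × Pt) := l.zip l.tail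

namespace Par

/-- a truth value modulo two -/
def bit (b : Bool) : ZMod 2 := if b then 1 else 0

@[simp] lemma bit_true : bit true = 1 := rfl

@[simp] lemma bit_false : bit false = 0 := rfl

lemma bit_xor (a b : Bool) : bit (xor a b) = bit a + bit b := by
  cases a <;> cases b <;> decide

lemma bit_not (a : Bool) : bit (!a) = 1 + bit a := by cases a <;> decide

lemma zmod2_add_self (z : ZMod 2) : z + z = 0 := by revert z; decide

/-- the abscissa after shearing by `t` -/
def shX (t : ℝ) (a : Pt) : ℝ := a.1 + t * a.2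

/-- `a` is strictly between `c` and `d` in abscissa -/
noncomputable def strad (t : ℝ) (c d a : Pt) : Bool :=
  xor (decide (shX t c < shX t a)) (decide (shX t d < shX t a))

/-- `a` is below the line `cd` -/
noncomputable def below (t : ℝ) (c d a : Pt) : Bool :=
  xor (side c d a) (decide (shX t c < shX t d))

/-- the downward end of a vertical ray from `a` to the segment `cd` -/
noncomputable def dn (t : ℝ) (c d a : Pt) : ZMod 2 := bit (strad t c d a) * bit (below t c d a)

/-- the upward end of a vertical ray from `c` to the segment `ab` -/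
noncomputable def up (t : ℝ) (a b c : Pt) : ZMod 2 := bit (strad t a b c) * bit (!below t a b c)

lemma strad_self (t : ℝ) (c a : Pt) : strad t c c a = false := by simp [strad]

lemma mem_segment_of (a b w : Pt) (lam : ℝ) (h0 : 0 ≤ lam) (h1 : lam ≤ 1)
    (hw1 : w.1 = a.1 + lam * (b.1 - a.1)) (hw2 : w.2 = a.2 + lam * (b.2 - a.2)) :
    w ∈ segment ℝ a b := by
  refine ⟨1 - lam, lam, by linarith, h0, by ring, ?_⟩
  ext <;> simp [hw1, hw2] <;> ring

lemma strad_pos (t : ℝ) (c d a : Pt) (h : strad t c d a = true) :
    0 ≤ (shX t a - shX t c) / (shX t d - shX t c) ∧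
      (shX t a - shX t c) / (shX t d - shX t c) ≤ 1 ∧ shX t d - shX t c ≠ 0 := by
  simp only [strad] at h
  by_cases h1 : shX t c < shX t a <;> by_cases h2 : shX t d < shX t a <;>
    simp [h1, h2] at h
  · have hlt : 0 < shX t d - shX t c := by linarith
    refine ⟨div_nonneg (by linarith) hlt.le, (div_le_one hlt).2 (by linarith), hlt.ne'⟩
  · have hlt : shX t d - shX t c < 0 := by linarith
    refine ⟨div_nonneg_of_nonpos (by linarith) hlt.le, (div_le_one_of_neg hlt).2 (by linarith),
      hlt.ne⟩

/-- the point of the segment `cd` above or below `a` -/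
lemma exists_vert (t : ℝ) (c d a : Pt) (h : strad t c d a = true) :
    ∃ w τ : ℝ, 0 ≤ w ∧ w ≤ 1 ∧ shX t d - shX t c ≠ 0 ∧
      c.1 + w * (d.1 - c.1) = a.1 - t * τ ∧ c.2 + w * (d.2 - c.2) = a.2 + τ ∧
      area c d a = -τ * (shX t d - shX t c) := by
  obtain ⟨h0, h1, hne⟩ := strad_pos t c d a h
  refine ⟨_, c.2 + (shX t a - shX t c) / (shX t d - shX t c) * (d.2 - c.2) - a.2, h0, h1, hne,
    ?_, by ring, ?_⟩
  · field_simp
    simp only [shX]
    ring
  · field_simp
    simp only [shX, area]
    ring

/-- a straddled point on the line of a segment is on the segment -/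
lemma mem_of_strad (t : ℝ) (c d a : Pt) (h : strad t c d a = true) (ha : area c d a = 0) :
    a ∈ segment ℝ c d := by
  obtain ⟨w, τ, h0, h1, hne, e1, e2, e3⟩ := exists_vert t c d a h
  rw [ha] at e3
  have hτ : τ = 0 := by
    rcases mul_eq_zero.1 e3.symm with h' | h'
    · linarith
    · exact absurd h' hne
  refine mem_segment_of c d a w h0 h1 ?_ ?_
  · rw [e1, hτ]; ring
  · rw [e2, hτ]; ring

lemma sq_le_of_mem (R : ℝ) (c d a : Pt) (hc : c.1 ^ 2 + c.2 ^ 2 ≤ R ^ 2)
    (hd : d.1 ^ 2 + d.2 ^ 2 ≤ R ^ 2) (w : ℝ) (h0 : 0 ≤ w) (h1 : w ≤ 1)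
    (e1 : c.1 + w * (d.1 - c.1) = a.1) (e2 : c.2 + w * (d.2 - c.2) = a.2) :
    a.1 ^ 2 + a.2 ^ 2 ≤ R ^ 2 := by
  rw [← e1, ← e2]
  nlinarith [mul_le_mul_of_nonneg_left hd h0, mul_le_mul_of_nonneg_left hc (sub_nonneg.2 h1),
    mul_nonneg (mul_nonneg h0 (sub_nonneg.2 h1))
      (add_nonneg (sq_nonneg (d.1 - c.1)) (sq_nonneg (d.2 - c.2)))]

/-- the lower half of the circle -/
noncomputable def lower (t : ℝ) (x : Pt) : Bool := decide (x.2 - t * x.1 < 0)

/-- seen from a point of the circle, all of the disc is on one side -/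
lemma below_circle (t R : ℝ) (c d x : Pt) (hc : c.1 ^ 2 + c.2 ^ 2 ≤ R ^ 2)
    (hd : d.1 ^ 2 + d.2 ^ 2 ≤ R ^ 2) (hx : x.1 ^ 2 + x.2 ^ 2 = R ^ 2)
    (hs : strad t c d x = true) (ha : area c d x ≠ 0) : below t c d x = lower t x := by
  obtain ⟨w, τ, h0, h1, hne, e1, e2, e3⟩ := exists_vert t c d x hs
  have hle := sq_le_of_mem R c d (x.1 - t * τ, x.2 + τ) hc hd w h0 h1 e1 e2
  have hτ : τ ≠ 0 := by
    intro h
    exact ha (by rw [e3, h]; ring)
  simp only at hle
  have hsign : τ * (x.2 - t * x.1) < 0 := by
    nlinarith [pow_two_pos_of_ne_zero hτ, sq_nonneg (t * τ)]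
  simp only [below, lower, side, e3]
  rcases lt_or_gt_of_ne hτ with hneg | hpos
  · have hL : ¬ x.2 - t * x.1 < 0 := by nlinarith
    rcases lt_or_gt_of_ne hne with hD | hD
    · have hp : ¬ 0 < -τ * (shX t d - shX t c) := by nlinarith
      rw [decide_eq_false hp, decide_eq_false hL, decide_eq_false (not_lt.2 (sub_neg.1 hD).le)]
      rfl
    · have hp : 0 < -τ * (shX t d - shX t c) := by nlinarith
      rw [decide_eq_true hp, decide_eq_false hL, decide_eq_true (sub_pos.1 hD)]
      rfl
  · have hL : x.2 - t * x.1 < 0 := by nlinarith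
    rcases lt_or_gt_of_ne hne with hD | hD
    · have hp : 0 < -τ * (shX t d - shX t c) := by nlinarith
      rw [decide_eq_true hp, decide_eq_true hL, decide_eq_false (not_lt.2 (sub_neg.1 hD).le)]
      rfl
    · have hp : ¬ 0 < -τ * (shX t d - shX t c) := by nlinarith
      rw [decide_eq_false hp, decide_eq_true hL, decide_eq_true (sub_pos.1 hD)]
      rfl

/-- straddling of four points on a line against a monotone truth value -/
lemma bool_line (xa xb xc xd : ℝ) (fa fb fc fd : Bool) (hab : xa ≠ xb) (hcd : xc ≠ xd)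
    (hac : xa ≠ xc) (had : xa ≠ xd) (hbc : xb ≠ xc) (hbd : xb ≠ xd)
    (f : ℝ → Bool) (ea : f xa = fa) (eb : f xb = fb) (ec : f xc = fc) (ed : f xd = fd)
    (hm : ∀ x y, x ≤ y → f x = true → f y = true) :
    bit (xor (decide (xc < xa)) (decide (xd < xa))) * bit fa +
        bit (xor (decide (xc < xb)) (decide (xd < xb))) * bit fb +
        (bit (xor (decide (xa < xc)) (decide (xb < xc))) * bit fc +
          bit (xor (decide (xa < xd)) (decide (xb < xd))) * bit fd) =
      bit (xor fa fb && xor fc fd) := by
  subst ea eb ec ed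
  rcases lt_or_gt_of_ne hab with h1 | h1 <;> rcases lt_or_gt_of_ne hcd with h2 | h2 <;>
    rcases lt_or_gt_of_ne hac with h3 | h3 <;> rcases lt_or_gt_of_ne had with h4 | h4 <;>
    rcases lt_or_gt_of_ne hbc with h5 | h5 <;> rcases lt_or_gt_of_ne hbd with h6 | h6 <;>
    first
      | exfalso; linarith
      | (have i1 := hm _ _ h1.le
         have i2 := hm _ _ h2.le
         have i3 := hm _ _ h3.le
         have i4 := hm _ _ h4.le
         have i5 := hm _ _ h5.le
         have i6 := hm _ _ h6.le
         simp only [h1, h2, h3, h4, h5, h6, not_lt.2 h1.le, not_lt.2 h2.le, not_lt.2 h3.le,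
           not_lt.2 h4.le, not_lt.2 h5.le, not_lt.2 h6.le, decide_true, decide_false]
         revert i1 i2 i3 i4 i5 i6
         generalize f xa = u; generalize f xb = v; generalize f xc = w; generalize f xd = z
         revert u v w z
         decide)

/-- the same for a monotone or antitone truth value -/
lemma bool_line' (xa xb xc xd : ℝ) (hab : xa ≠ xb) (hcd : xc ≠ xd) (hac : xa ≠ xc)
    (had : xa ≠ xd) (hbc : xb ≠ xc) (hbd : xb ≠ xd) (f : ℝ → Bool)
    (hm : (∀ x y, x ≤ y → f x = true → f y = true) ∨ ∀ x y, x ≤ y → f y = true → f x = true) :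
    bit (xor (decide (xc < xa)) (decide (xd < xa))) * bit (f xa) +
        bit (xor (decide (xc < xb)) (decide (xd < xb))) * bit (f xb) +
        (bit (xor (decide (xa < xc)) (decide (xb < xc))) * bit (f xc) +
          bit (xor (decide (xa < xd)) (decide (xb < xd))) * bit (f xd)) =
      bit (xor (f xa) (f xb) && xor (f xc) (f xd)) := by
  rcases hm with hm | hm
  · exact bool_line xa xb xc xd _ _ _ _ hab hcd hac had hbc hbd f rfl rfl rfl rfl hm
  · have h := bool_line xa xb xc xd _ _ _ _ hab hcd hac had hbc hbd (fun x => !f x) rfl rfl rfl rfl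
      (fun x y hxy h => by
        cases hy : f y
        · rfl
        · simp [hm x y hxy hy] at h)
    have he : bit (xor (decide (xc < xa)) (decide (xd < xa))) +
        bit (xor (decide (xc < xb)) (decide (xd < xb))) +
        (bit (xor (decide (xa < xc)) (decide (xb < xc))) +
          bit (xor (decide (xa < xd)) (decide (xb < xd)))) = 0 := by
      rw [show decide (xa < xc) = !decide (xc < xa) by
          rcases lt_or_gt_of_ne hac with h | h <;> simp [h, h.le],
        show decide (xb < xc) = !decide (xc < xb) by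
          rcases lt_or_gt_of_ne hbc with h | h <;> simp [h, h.le],
        show decide (xa < xd) = !decide (xd < xa) by
          rcases lt_or_gt_of_ne had with h | h <;> simp [h, h.le],
        show decide (xb < xd) = !decide (xd < xb) by
          rcases lt_or_gt_of_ne hbd with h | h <;> simp [h, h.le]]
      generalize decide (xc < xa) = u
      generalize decide (xd < xa) = v
      generalize decide (xc < xb) = w
      generalize decide (xd < xb) = z
      revert u v w z
      decide
    simp only [bit_not, Bool.bne_not, Bool.not_bne, Bool.not_not] at h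
    linear_combination h - he

/-- the vertical rays of two segments count their crossing modulo two -/
lemma seg_sum (t : ℝ) (a b c d : Pt) (hab : shX t a ≠ shX t b) (hcd : shX t c ≠ shX t d)
    (hac : shX t a ≠ shX t c) (had : shX t a ≠ shX t d) (hbc : shX t b ≠ shX t c)
    (hbd : shX t b ≠ shX t d) (hc : strad t a b c = true → area a b c ≠ 0)
    (hd : strad t a b d = true → area a b d ≠ 0) :
    ∃ fc fd : Bool, dn t c d a + dn t c d b + (up t a b c + up t a b d) =
        bit (xor (side c d a) (side c d b) && xor fc fd) ∧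
      (area a b c ≠ 0 → fc = !below t a b c) ∧ (area a b d ≠ 0 → fd = !below t a b d) ∧
      (fc ≠ fd → area a b c * area a b d ≤ 0) := by
  let H : ℝ → ℝ := fun x => (area c d a * (shX t b - x) + area c d b * (x - shX t a)) /
    (shX t b - shX t a)
  have hba : shX t b - shX t a ≠ 0 := sub_ne_zero.2 hab.symm
  have hdc : shX t d - shX t c ≠ 0 := sub_ne_zero.2 hcd.symm
  have Ha : H (shX t a) = area c d a := by simp only [H]; field_simp; ring
  have Hb : H (shX t b) = area c d b := by simp only [H]; field_simp; ring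
  have Hc : H (shX t c) = -(area a b c) * ((shX t d - shX t c) / (shX t b - shX t a)) := by
    simp only [H]; field_simp; simp only [shX, area]; ring
  have Hd : H (shX t d) = -(area a b d) * ((shX t d - shX t c) / (shX t b - shX t a)) := by
    simp only [H]; field_simp; simp only [shX, area]; ring
  let f : ℝ → Bool := fun x => xor (decide (0 < H x)) (decide (shX t c < shX t d))
  have haff : ∀ x y, H y - H x =
      (y - x) * ((area c d b - area c d a) / (shX t b - shX t a)) := by
    intro x y; simp only [H]; field_simp; ring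
  have hm : (∀ x y, x ≤ y → f x = true → f y = true) ∨
      ∀ x y, x ≤ y → f y = true → f x = true := by
    by_cases ho : shX t c < shX t d <;>
      rcases le_total 0 ((area c d b - area c d a) / (shX t b - shX t a)) with hs | hs <;>
      simp only [f, ho, decide_true, decide_false, Bool.bne_false, Bool.bne_true,
        Bool.not_eq_true', decide_eq_true_eq, decide_eq_false_iff_not, not_lt]
    all_goals
      first
        | (left; intro x y hxy h; nlinarith [haff x y, mul_nonneg (sub_nonneg.2 hxy) hs])
        | (right; intro x y hxy h; nlinarith [haff x y, mul_nonneg (sub_nonneg.2 hxy) hs])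
        | (left; intro x y hxy h
           nlinarith [haff x y, mul_nonpos_of_nonneg_of_nonpos (sub_nonneg.2 hxy) hs])
        | (right; intro x y hxy h
           nlinarith [haff x y, mul_nonpos_of_nonneg_of_nonpos (sub_nonneg.2 hxy) hs])
  have key := bool_line' _ _ _ _ hab hcd hac had hbc hbd f hm
  have fa : f (shX t a) = below t c d a := by simp only [f, below, side, Ha]
  have fb : f (shX t b) = below t c d b := by simp only [f, below, side, Hb]
  have fcd : ∀ e : Pt, H (shX t e) = -(area a b e) * ((shX t d - shX t c) / (shX t b - shX t a)) →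
      area a b e ≠ 0 → f (shX t e) = !below t a b e := by
    intro e he hne
    simp only [f, below, side, he]
    have hsgn : decide (0 < -area a b e * ((shX t d - shX t c) / (shX t b - shX t a))) =
        !xor (!decide (0 < area a b e))
          (!xor (decide (shX t c < shX t d)) (decide (shX t a < shX t b))) := by
      rcases lt_or_gt_of_ne hne with h3 | h3 <;> rcases lt_or_gt_of_ne hcd with h1 | h1 <;>
        rcases lt_or_gt_of_ne hab with h2 | h2
      all_goals
        simp only [decide_eq_true h1, decide_eq_true h2, decide_eq_true h3,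
          decide_eq_false (not_lt.2 h1.le), decide_eq_false (not_lt.2 h2.le),
          decide_eq_false (not_lt.2 h3.le)]
      all_goals
        simp only [Bool.bne_false, Bool.bne_true, Bool.not_true, Bool.not_false,
          decide_eq_true_eq, decide_eq_false_iff_not, not_lt]
      all_goals
        rw [mul_div_assoc']
        first
          | (refine div_pos ?_ ?_ <;> nlinarith)
          | (refine div_pos_of_neg_of_neg ?_ ?_ <;> nlinarith)
          | (refine div_nonpos_of_nonneg_of_nonpos ?_ ?_ <;> nlinarith)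
          | (refine div_nonpos_of_nonpos_of_nonneg ?_ ?_ <;> nlinarith)
    rw [hsgn]
    cases decide (0 < area a b e) <;> cases decide (shX t c < shX t d) <;>
      cases decide (shX t a < shX t b) <;> rfl
  refine ⟨f (shX t c), f (shX t d), ?_, fcd c Hc, fcd d Hd, ?_⟩
  · have hupc : up t a b c = bit (strad t a b c) * bit (f (shX t c)) := by
      cases h : strad t a b c
      · simp [up, h]
      · simp [up, h, fcd c Hc (hc h)]
    have hupd : up t a b d = bit (strad t a b d) * bit (f (shX t d)) := by
      cases h : strad t a b d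
      · simp [up, h]
      · simp [up, h, fcd d Hd (hd h)]
    rw [hupc, hupd]
    simp only [dn, strad, ← fa, ← fb]
    rw [key, fa, fb]
    simp only [below]
    cases side c d a <;> cases side c d b <;> cases decide (shX t c < shX t d) <;> rfl
  · intro hne
    by_contra hlt
    rw [not_le] at hlt
    have hc0 := left_ne_zero_of_mul hlt.ne'
    have hd0 := right_ne_zero_of_mul hlt.ne'
    apply hne
    rw [fcd c Hc hc0, fcd d Hd hd0]
    simp only [below, side]
    rcases mul_pos_iff.1 hlt with ⟨u, v⟩ | ⟨u, v⟩ <;> simp [u, v, not_lt.2 u.le, not_lt.2 v.le]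

/-- the crossing identity for segments whose line avoids `c` and `d` -/
lemma seg_cross (t : ℝ) (a b c d : Pt) (hcd : shX t c ≠ shX t d)
    (hac : shX t a ≠ shX t c) (had : shX t a ≠ shX t d) (hbc : shX t b ≠ shX t c)
    (hbd : shX t b ≠ shX t d)
    (hg : a = b ∨ shX t a ≠ shX t b ∧ area a b c ≠ 0 ∧ area a b d ≠ 0) :
    dn t c d a + dn t c d b + (up t a b c + up t a b d) =
      bit (xor (side c d a) (side c d b) && xor (side a b c) (side a b d)) := by
  rcases hg with rfl | ⟨hab, hc, hd⟩
  · simp [up, strad_self, zmod2_add_self]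
  obtain ⟨fc, fd, he, ec, ed, -⟩ :=
    seg_sum t a b c d hab hcd hac had hbc hbd (fun _ => hc) (fun _ => hd)
  rw [he, ec hc, ed hd]
  simp only [below]
  cases side c d a <;> cases side c d b <;> cases side a b c <;> cases side a b d <;>
    cases decide (shX t a < shX t b) <;> rfl

/-- the crossing identity for disjoint segments -/
lemma seg_disjoint (t : ℝ) (a b c d : Pt) (hab : a = b ∨ shX t a ≠ shX t b)
    (hcd : c = d ∨ shX t c ≠ shX t d) (hac : shX t a ≠ shX t c) (had : shX t a ≠ shX t d)
    (hbc : shX t b ≠ shX t c) (hbd : shX t b ≠ shX t d)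
    (hdis : ∀ w, w ∈ segment ℝ a b → w ∈ segment ℝ c d → False) :
    dn t c d a + dn t c d b + (up t a b c + up t a b d) = 0 := by
  rcases hab with rfl | hab
  · simp [up, strad_self, zmod2_add_self]
  rcases hcd with rfl | hcd
  · simp [dn, strad_self, zmod2_add_self]
  obtain ⟨fc, fd, he, -, -, hle⟩ := seg_sum t a b c d hab hcd hac had hbc hbd
    (fun h h0 => hdis c (mem_of_strad t a b c h h0) (left_mem_segment ℝ c d))
    (fun h h0 => hdis d (mem_of_strad t a b d h h0) (right_mem_segment ℝ c d))
  rw [he]
  by_cases h : side c d a = side c d b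
  · simp [h]
  by_cases h' : fc = fd
  · simp [h']
  exfalso
  have hA := hle h'
  have hrel : area a b d - area a b c = area c d a - area c d b := by simp only [area]; ring
  have hB : area c d a * area c d b ≤ 0 ∧ area c d a - area c d b ≠ 0 := by
    simp only [side] at h
    by_cases u : 0 < area c d a <;> by_cases v : 0 < area c d b <;>
      simp [u, v] at h
    · exact ⟨mul_nonpos_of_nonneg_of_nonpos u.le (not_lt.1 v), by linarith⟩
    · exact ⟨mul_nonpos_of_nonpos_of_nonneg (not_lt.1 u) v.le, by linarith⟩
  have unit : ∀ u v : ℝ, u * v ≤ 0 → u - v ≠ 0 → 0 ≤ u / (u - v) ∧ u / (u - v) ≤ 1 := by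
    intro u v huv hne
    rcases lt_or_gt_of_ne hne with hn | hp
    · exact ⟨div_nonneg_of_nonpos (by nlinarith) hn.le, (div_le_one_of_neg hn).2 (by nlinarith)⟩
    · exact ⟨div_nonneg (by nlinarith) hp.le, (div_le_one hp).2 (by nlinarith)⟩
  have hne2 : area a b c - area a b d ≠ 0 := by
    intro h0; exact hB.2 (by linarith)
  obtain ⟨l0, l1⟩ := unit _ _ hB.1 hB.2
  obtain ⟨m0, m1⟩ := unit _ _ hA hne2
  refine hdis (a.1 + area c d a / (area c d a - area c d b) * (b.1 - a.1),
    a.2 + area c d a / (area c d a - area c d b) * (b.2 - a.2))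
    (mem_segment_of a b _ _ l0 l1 rfl rfl) (mem_segment_of c d _ _ m0 m1 ?_ ?_)
  · have := hB.2
    field_simp
    simp only [area]
    ring
  · have := hB.2
    field_simp
    simp only [area]
    ring

lemma segs_cons (a b : Pt) (l : List Pt) : segs (a :: b :: l) = (a, b) :: segs (b :: l) := rfl

/-- only the ends of a path remain -/
lemma telescope (g : Pt → ZMod 2) (l : List Pt) (x y : Pt) (h0 : l.head? = some x)
    (h1 : l.getLast? = some y) : ((segs l).map fun e => g e.1 + g e.2).sum = g x + g y := by
  induction l generalizing x with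
  | nil => simp at h0
  | cons a l ih =>
    obtain rfl : a = x := by simpa using h0
    cases l with
    | nil =>
      obtain rfl : a = y := by simpa using h1
      simp [segs, zmod2_add_self]
    | cons b l =>
      rw [segs_cons, List.map_cons, List.sum_cons, ih b rfl (by simpa using h1)]
      linear_combination zmod2_add_self (g b)

lemma segs_mem {l : List Pt} {e : Pt × Pt} (he : e ∈ segs l) : e.1 ∈ l ∧ e.2 ∈ l :=
  ⟨(List.of_mem_zip he).1, List.mem_of_mem_tail (List.of_mem_zip he).2⟩

/-- straddling summed along a path -/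
lemma strad_sum (t : ℝ) (x : Pt) (l : List Pt) (u v : Pt) (h0 : l.head? = some u)
    (h1 : l.getLast? = some v) :
    ((segs l).map fun e => bit (strad t e.1 e.2 x)).sum = bit (strad t u v x) := by
  simp only [strad, bit_xor]
  exact telescope (fun a => bit (decide (shX t a < shX t x))) l u v h0 h1

/-- from a point of the circle, the rays meet a path in the disc only through its ends -/
lemma circle_sum (t R : ℝ) (x : Pt) (hx : x.1 ^ 2 + x.2 ^ 2 = R ^ 2) (l : List Pt)
    (hl : ∀ a ∈ l, a.1 ^ 2 + a.2 ^ 2 ≤ R ^ 2)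
    (hno : ∀ e ∈ segs l, x ∉ segment ℝ e.1 e.2) (u v : Pt) (h0 : l.head? = some u)
    (h1 : l.getLast? = some v) :
    ((segs l).map fun e => dn t e.1 e.2 x).sum = bit (strad t u v x) * bit (lower t x) ∧
      ((segs l).map fun e => up t e.1 e.2 x).sum = bit (strad t u v x) * bit (!lower t x) := by
  have hb : ∀ e ∈ segs l, strad t e.1 e.2 x = true → below t e.1 e.2 x = lower t x :=
    fun e he hs => below_circle t R _ _ x (hl _ (segs_mem he).1) (hl _ (segs_mem he).2) hx hs
      fun h0 => hno e he (mem_of_strad t _ _ x hs h0)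
  rw [← strad_sum t x l u v h0 h1, ← List.sum_map_mul_right, ← List.sum_map_mul_right]
  constructor <;>
    refine congrArg List.sum (List.map_congr_left fun e he => ?_) <;>
    cases h : strad t e.1 e.2 x <;> simp [dn, up, h, hb e he]

lemma sum_map_add {α : Type*} (l : List α) (f g : α → ZMod 2) :
    (l.map fun x => f x + g x).sum = (l.map f).sum + (l.map g).sum := by
  induction l with
  | nil => simp
  | cons a l ih => simp only [List.map_cons, List.sum_cons, ih]; ring

/-- a shear separating finitely many points -/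
lemma exists_shear (S : Finset Pt) : ∃ t : ℝ, ∀ a ∈ S, ∀ b ∈ S, a ≠ b → shX t a ≠ shX t b := by
  classical
  obtain ⟨t, ht⟩ := Infinite.exists_notMem_finset
    ((S ×ˢ S).image fun q : Pt × Pt => -(q.1.1 - q.2.1) / (q.1.2 - q.2.2))
  refine ⟨t, fun a ha b hb hne h => ?_⟩
  simp only [shX] at h
  by_cases h2 : a.2 - b.2 = 0
  · refine hne (Prod.ext ?_ (sub_eq_zero.1 h2))
    rw [sub_eq_zero.1 h2] at h
    linarith
  · apply ht
    refine Finset.mem_image.2 ⟨(a, b), Finset.mem_product.2 ⟨ha, hb⟩, ?_⟩
    rw [div_eq_iff h2]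
    linarith

lemma sq_onCircle (R α : ℝ) : (onCircle R α).1 ^ 2 + (onCircle R α).2 ^ 2 = R ^ 2 := by
  simp only [onCircle]
  linear_combination R ^ 2 * Real.cos_sq_add_sin_sq α

/-- the orientation of three points of a circle -/
lemma area_onCircle (R a b c : ℝ) : area (onCircle R a) (onCircle R b) (onCircle R c) =
    4 * R ^ 2 * Real.sin ((b - a) / 2) * Real.sin ((c - b) / 2) * Real.sin ((c - a) / 2) := by
  obtain ⟨u, rfl⟩ : ∃ u, a = 2 * u := ⟨a / 2, by ring⟩
  obtain ⟨v, rfl⟩ : ∃ v, b = 2 * v := ⟨b / 2, by ring⟩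
  obtain ⟨w, rfl⟩ : ∃ w, c = 2 * w := ⟨c / 2, by ring⟩
  simp only [area, onCircle, show (2 * v - 2 * u) / 2 = v - u by ring,
    show (2 * w - 2 * v) / 2 = w - v by ring, show (2 * w - 2 * u) / 2 = w - u by ring,
    Real.cos_two_mul', Real.sin_two_mul, Real.sin_sub]
  have h1 := Real.sin_sq_add_cos_sq u
  have h2 := Real.sin_sq_add_cos_sq v
  have h3 := Real.sin_sq_add_cos_sq w
  grobner

lemma area_circle_pos (R a b c : ℝ) (hR : 0 < R) (hab : a < b) (hbc : b < c)
    (hw : c < a + 2 * Real.pi) : 0 < area (onCircle R a) (onCircle R b) (onCircle R c) := by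
  rw [area_onCircle]
  have h1 : 0 < Real.sin ((b - a) / 2) :=
    Real.sin_pos_of_pos_of_lt_pi (by linarith) (by linarith)
  have h2 : 0 < Real.sin ((c - b) / 2) :=
    Real.sin_pos_of_pos_of_lt_pi (by linarith) (by linarith)
  have h3 : 0 < Real.sin ((c - a) / 2) :=
    Real.sin_pos_of_pos_of_lt_pi (by linarith) (by linarith)
  positivity

lemma area_perm (a b c : Pt) : area a c b = -area a b c ∧ area b c a = area a b c := by
  constructor <;> · simp only [area]; ring

lemma pathCost_eq {n : ℕ} (p : Fin n → Pt) (s : Fin n → Bool) (l : List Pt) :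
    pathCost p s l = ((segs l).map fun e => cost p s e.1 e.2).sum := by
  induction l with
  | nil => rfl
  | cons a l ih =>
    cases l with
    | nil => rfl
    | cons b l => simp [pathCost, segs_cons, ih]

lemma good_of_chain {n : ℕ} {p : Fin n → Pt} {l : List Pt} (h : l.IsChain (Good p)) :
    ∀ e ∈ segs l, Good p e.1 e.2 := by
  induction l with
  | nil => simp [segs]
  | cons a l ih =>
    cases l with
    | nil => simp [segs]
    | cons b l =>
      rw [List.isChain_cons_cons] at h
      intro e he
      rw [segs_cons, List.mem_cons] at he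
      rcases he with rfl | he
      · exact h.1
      · exact ih h.2 e he

/-- no vertex of a path to the circle is a marked point -/
lemma vertex_ne {n : ℕ} {p : Fin n → Pt} (i : Fin n) (l : List Pt) (h : l.IsChain (Good p))
    (y : Pt) (h1 : l.getLast? = some y) (hy : y ≠ p i) : p i ∉ l := by
  induction l with
  | nil => simp
  | cons a l ih =>
    cases l with
    | nil =>
      obtain rfl : a = y := by simpa using h1
      simpa using hy.symm
    | cons b l =>
      rw [List.isChain_cons_cons] at h
      have hb := ih h.2 (by simpa using h1)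
      intro hmem
      rcases List.mem_cons.1 hmem with rfl | hmem
      · rcases h.1 with he | he
        · exact hb (by simp [← he])
        · exact he i (by simp [area])
      · exact hb hmem

lemma sum_toFinset_le {α : Type*} [DecidableEq α] (l : List α) (f : α → ℕ) :
    ∑ e ∈ l.toFinset, f e ≤ (l.map f).sum := by
  induction l with
  | nil => simp
  | cons a l ih =>
    rw [List.toFinset_cons, List.map_cons, List.sum_cons]
    by_cases h : a ∈ l.toFinset
    · rw [Finset.insert_eq_of_mem h]; omega
    · rw [Finset.sum_insert h]; omega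

end Par

open Par

/-- two polygonal paths in a disc with interleaved ends on the circle share a point -/
theorem interleave_meet (R : ℝ) (hR : 0 < R) (α : Fin 4 → ℝ) (hα : StrictMono α)
    (hwrap : α 3 < α 0 + 2 * Real.pi) (P Q : List Pt)
    (hP : ∀ a ∈ P, a.1 ^ 2 + a.2 ^ 2 ≤ R ^ 2) (hQ : ∀ a ∈ Q, a.1 ^ 2 + a.2 ^ 2 ≤ R ^ 2)
    (hP0 : P.head? = some (onCircle R (α 0))) (hP1 : P.getLast? = some (onCircle R (α 2)))
    (hQ0 : Q.head? = some (onCircle R (α 1))) (hQ1 : Q.getLast? = some (onCircle R (α 3))) :
    ∃ e ∈ segs P, ∃ f ∈ segs Q, ∃ w, w ∈ segment ℝ e.1 e.2 ∧ w ∈ segment ℝ f.1 f.2 := by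
  classical
  by_contra hcon
  push Not at hcon
  set A := onCircle R (α 0) with hA
  set B := onCircle R (α 2) with hB
  set C := onCircle R (α 1) with hC
  set D := onCircle R (α 3) with hD
  have h01 : α 0 < α 1 := hα (by decide)
  have h12 : α 1 < α 2 := hα (by decide)
  have h23 : α 2 < α 3 := hα (by decide)
  have k012 : 0 < area A C B := area_circle_pos R _ _ _ hR h01 h12 (by linarith)
  have k023 : 0 < area A B D := area_circle_pos R _ _ _ hR (by linarith) h23 hwrap
  have k123 : 0 < area C B D := area_circle_pos R _ _ _ hR h12 h23 (by linarith)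
  have k013 : 0 < area A C D := area_circle_pos R _ _ _ hR h01 (by linarith) hwrap
  have sc : area A B C < 0 := by rw [(area_perm A C B).1]; linarith
  have sa : 0 < area C D A := by rw [(area_perm A C D).2]; exact k013
  have sb : area C D B < 0 := by rw [(area_perm C B D).1]; linarith
  -- a segment through every vertex of each path
  have hne : A ≠ B ∧ C ≠ D ∧ A ≠ C ∧ A ≠ D ∧ B ≠ C ∧ B ≠ D := by
    refine ⟨?_, ?_, ?_, ?_, ?_, ?_⟩ <;> intro he <;> simp [he, area] at k012 k023 k123 k013 sc <;> linarith
  have cover : ∀ l : List Pt, ∀ u v, l.head? = some u → l.getLast? = some v → u ≠ v → ∀ a ∈ l,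
      ∃ e ∈ segs l, a ∈ segment ℝ e.1 e.2 := by
    intro l
    induction l with
    | nil => intro u v h0; simp at h0
    | cons a l ih =>
      intro u v h0 h1 huv c hc
      cases l with
      | nil => simp at h0 h1; exact absurd (h0.symm.trans h1) huv
      | cons b l =>
        rcases List.mem_cons.1 hc with rfl | hc
        · exact ⟨(c, b), by simp [segs_cons], left_mem_segment ℝ c b⟩
        rcases List.mem_cons.1 hc with rfl | hc'
        · exact ⟨(a, c), by simp [segs_cons], right_mem_segment ℝ a c⟩
        by_cases hbv : b = v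
        · cases l with
          | nil => simp at hc'
          | cons b' l =>
            clear ih
            have : ∀ (m : List Pt) (x y : Pt), y ∈ m → ∃ e ∈ segs (x :: m), y ∈ segment ℝ e.1 e.2 := by
              intro m
              induction m with
              | nil => simp
              | cons q m ihm =>
                intro x y hy
                rcases List.mem_cons.1 hy with rfl | hy
                · exact ⟨(x, y), by simp [segs_cons], right_mem_segment ℝ x y⟩
                · obtain ⟨e, he, hm⟩ := ihm q y hy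
                  exact ⟨e, by simp [segs_cons, he], hm⟩
            obtain ⟨e, he, hm⟩ := this (b' :: l) b c hc'
            exact ⟨e, List.mem_cons_of_mem _ he, hm⟩
        · obtain ⟨e, he, hm⟩ := ih b v rfl (by simpa using h1) hbv c (List.mem_cons_of_mem _ hc')
          exact ⟨e, List.mem_cons_of_mem _ he, hm⟩
  have memP := cover P A B hP0 hP1 hne.1
  have memQ := cover Q C D hQ0 hQ1 hne.2.1
  have hdisj : ∀ a ∈ P, ∀ b ∈ Q, a ≠ b := by
    intro a ha b hb hab
    obtain ⟨e, he, hea⟩ := memP a ha
    obtain ⟨f, hf, hfb⟩ := memQ b hb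
    exact hcon e he f hf a hea (hab ▸ hfb)
  obtain ⟨t, ht⟩ := exists_shear (P.toFinset ∪ Q.toFinset)
  have sepP : ∀ a ∈ P, ∀ b ∈ P, a = b ∨ shX t a ≠ shX t b := fun a ha b hb =>
    (em (a = b)).imp id fun h => ht a (by simp [ha]) b (by simp [hb]) h
  have sepQ : ∀ a ∈ Q, ∀ b ∈ Q, a = b ∨ shX t a ≠ shX t b := fun a ha b hb =>
    (em (a = b)).imp id fun h => ht a (by simp [ha]) b (by simp [hb]) h
  have sep : ∀ a ∈ P, ∀ b ∈ Q, shX t a ≠ shX t b := fun a ha b hb =>
    ht a (by simp [ha]) b (by simp [hb]) (hdisj a ha b hb)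
  have AP : A ∈ P := List.mem_of_head? hP0
  have BP : B ∈ P := List.mem_of_getLast? hP1
  have CQ : C ∈ Q := List.mem_of_head? hQ0
  have DQ : D ∈ Q := List.mem_of_getLast? hQ1
  -- every pair of segments contributes zero
  have row : ∀ e ∈ segs P, ((segs Q).map fun f => dn t f.1 f.2 e.1).sum +
      ((segs Q).map fun f => dn t f.1 f.2 e.2).sum + (up t e.1 e.2 C + up t e.1 e.2 D) = 0 := by
    intro e he
    rw [← telescope (fun x => up t e.1 e.2 x) Q C D hQ0 hQ1, ← sum_map_add, ← sum_map_add]
    refine List.sum_eq_zero fun z hz => ?_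
    obtain ⟨f, hf, rfl⟩ := List.mem_map.1 hz
    exact seg_disjoint t e.1 e.2 f.1 f.2 (sepP _ (segs_mem he).1 _ (segs_mem he).2)
      (sepQ _ (segs_mem hf).1 _ (segs_mem hf).2) (sep _ (segs_mem he).1 _ (segs_mem hf).1)
      (sep _ (segs_mem he).1 _ (segs_mem hf).2) (sep _ (segs_mem he).2 _ (segs_mem hf).1)
      (sep _ (segs_mem he).2 _ (segs_mem hf).2) (fun w h1 h2 => hcon e he f hf w h1 h2)
  have total : ((segs P).map fun e => ((segs Q).map fun f => dn t f.1 f.2 e.1).sum +
      ((segs Q).map fun f => dn t f.1 f.2 e.2).sum + (up t e.1 e.2 C + up t e.1 e.2 D)).sum = 0 :=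
    List.sum_eq_zero fun z hz => by
      obtain ⟨e, he, rfl⟩ := List.mem_map.1 hz
      exact row e he
  rw [sum_map_add, telescope (fun x => ((segs Q).map fun f => dn t f.1 f.2 x).sum) P A B hP0 hP1,
    sum_map_add] at total
  have noQ : ∀ x ∈ P, ∀ f ∈ segs Q, x ∉ segment ℝ f.1 f.2 := fun x hx f hf h => by
    obtain ⟨e, he, hex⟩ := memP x hx
    exact hcon e he f hf x hex h
  have noP : ∀ x ∈ Q, ∀ e ∈ segs P, x ∉ segment ℝ e.1 e.2 := fun x hx e he h => by
    obtain ⟨f, hf, hfx⟩ := memQ x hx
    exact hcon e he f hf x h hfx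
  rw [(circle_sum t R A (sq_onCircle R _) Q hQ (noQ A AP) C D hQ0 hQ1).1,
    (circle_sum t R B (sq_onCircle R _) Q hQ (noQ B BP) C D hQ0 hQ1).1,
    (circle_sum t R C (sq_onCircle R _) P hP (noP C CQ) A B hP0 hP1).2,
    (circle_sum t R D (sq_onCircle R _) P hP (noP D DQ) A B hP0 hP1).2] at total
  -- the two chords cross
  have chord := seg_cross t A B C D ((sepQ C CQ D DQ).resolve_left hne.2.1)
    (sep A AP C CQ) (sep A AP D DQ) (sep B BP C CQ) (sep B BP D DQ)
    (Or.inr ⟨(sepP A AP B BP).resolve_left hne.1, sc.ne, k023.ne'⟩)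
  have one : ∀ x c d : Pt, x.1 ^ 2 + x.2 ^ 2 = R ^ 2 → c.1 ^ 2 + c.2 ^ 2 = R ^ 2 →
      d.1 ^ 2 + d.2 ^ 2 = R ^ 2 → area c d x ≠ 0 →
      dn t c d x = bit (strad t c d x) * bit (lower t x) ∧
        up t c d x = bit (strad t c d x) * bit (!lower t x) := by
    intro x c d hx hc hd ha
    constructor <;> cases h : strad t c d x <;>
      simp [dn, up, h, below_circle t R c d x hc.le hd.le hx, ha]
  rw [(one A C D (sq_onCircle R _) (sq_onCircle R _) (sq_onCircle R _) sa.ne').1,
    (one B C D (sq_onCircle R _) (sq_onCircle R _) (sq_onCircle R _) sb.ne).1,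
    (one C A B (sq_onCircle R _) (sq_onCircle R _) (sq_onCircle R _) sc.ne).2,
    (one D A B (sq_onCircle R _) (sq_onCircle R _) (sq_onCircle R _) k023.ne').2, total] at chord
  simp [side, sa, k023, not_lt.2 sb.le, not_lt.2 sc.le] at chord

/-- a path between opposite far points crosses at least `k²` exterior arcs -/
theorem path_lower (k : ℕ) (p : Fin (2 * k + 1) → Pt) (s : Fin (2 * k + 1) → Bool) (hp : GenPos p)
    (R : ℝ) (hin : ∀ i, (p i).1 ^ 2 + (p i).2 ^ 2 < R ^ 2) (x : Pt)
    (hx : x.1 ^ 2 + x.2 ^ 2 = R ^ 2)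
    (hflip : ∀ i j, i < j → s i = s j → side (p i) (p j) x ≠ side (p i) (p j) (-x))
    (l : List Pt) (hl : GoodPath p R l) (h0 : l.head? = some x) (h1 : l.getLast? = some (-x)) :
    k * k ≤ pathCost p s l := by
  classical
  obtain ⟨hchain, -⟩ := hl
  have hx' : (-x).1 ^ 2 + (-x).2 ^ 2 = R ^ 2 := by simpa using hx
  have hxp : ∀ i, -x ≠ p i := fun i h => by
    have := hin i; rw [← h] at this; linarith
  have hmem : ∀ i, p i ∉ l := fun i => vertex_ne i l hchain (-x) h1 (hxp i)
  have hinj : ∀ i j, i < j → p i ≠ p j := by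
    intro i j hij h
    obtain rfl | hk : k = 0 ∨ 0 < k := Nat.eq_zero_or_pos k
    · omega
    obtain ⟨u, v, huv, hne⟩ : ∃ u v : Fin (2 * k + 1), u < v ∧ (i, j) ≠ (u, v) := by
      by_cases h' : (i, j) = (⟨0, by omega⟩, ⟨1, by omega⟩)
      · refine ⟨⟨0, by omega⟩, ⟨2, by omega⟩, Fin.mk_lt_mk.2 (by omega), ?_⟩
        rw [h']; simp [Fin.ext_iff]
      · exact ⟨_, _, Fin.mk_lt_mk.2 (by omega), h'⟩
    exact hp.2 i j u v hij huv hne (by rw [h]; ring)
  obtain ⟨t, ht⟩ := exists_shear (l.toFinset ∪ univ.image p)
  have sepl : ∀ a ∈ l, ∀ b ∈ l, a = b ∨ shX t a ≠ shX t b := fun a ha b hb =>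
    (em (a = b)).imp id fun h => ht a (by simp [ha]) b (by simp [hb]) h
  have sep : ∀ a ∈ l, ∀ i, shX t a ≠ shX t (p i) := fun a ha i =>
    ht a (by simp [ha]) (p i) (by simp) fun h => hmem i (h ▸ ha)
  let Q : Fin (2 * k + 1) → ZMod 2 := fun i => ((segs l).map fun e => up t e.1 e.2 (p i)).sum
  let E : Pt → Fin (2 * k + 1) → ZMod 2 := fun y i =>
    bit (lower t y) * bit (decide (shX t (p i) < shX t y))
  let q : Fin (2 * k + 1) → ZMod 2 := fun i => Q i + bit (s i) + E x i + E (-x) i
  have circ : ∀ y : Pt, y.1 ^ 2 + y.2 ^ 2 = R ^ 2 → ∀ i j,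
      dn t (p i) (p j) y = E y i + E y j := by
    intro y hy i j
    have hd : dn t (p i) (p j) y = bit (strad t (p i) (p j) y) * bit (lower t y) := by
      cases hs : strad t (p i) (p j) y
      · simp [dn, hs]
      · have ha : area (p i) (p j) y ≠ 0 := by
          intro h0
          obtain ⟨u, v, hu, hv, huv, he⟩ := mem_of_strad t _ _ y hs h0
          have e1 : u * (p i).1 + v * (p j).1 = y.1 := by rw [← he]; simp
          have e2 : u * (p i).2 + v * (p j).2 = y.2 := by rw [← he]; simp
          rw [← e1, ← e2] at hy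
          obtain rfl : v = 1 - u := by linarith
          rcases hu.lt_or_eq with hu | rfl
          · nlinarith [mul_lt_mul_of_pos_left (hin i) hu, mul_le_mul_of_nonneg_left (hin j).le hv,
              mul_nonneg (mul_nonneg hu.le hv) (add_nonneg (sq_nonneg ((p i).1 - (p j).1))
                (sq_nonneg ((p i).2 - (p j).2)))]
          · have := hin j
            simp at hy
            linarith
        simp [dn, hs, below_circle t R _ _ y (hin i).le (hin j).le hy hs ha]
    rw [hd, strad, bit_xor]
    simp only [E]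
    ring
  have hq : ∀ i j, i < j → q i = q j → ∃ e ∈ segs l, Cut p s e.1 e.2 i j := by
    intro i j hij hqe
    by_contra hcon
    push Not at hcon
    have hcd : shX t (p i) ≠ shX t (p j) := ht _ (by simp) _ (by simp) (hinj i j hij)
    let σ : Pt → ZMod 2 := fun a => bit (side (p i) (p j) a)
    let g : Pt → ZMod 2 := fun a => bit (s i == s j) * σ a + dn t (p i) (p j) a
    have row : ∀ e ∈ segs l, g e.1 + g e.2 + (up t e.1 e.2 (p i) + up t e.1 e.2 (p j)) = 0 := by
      intro e he
      have hg : e.1 = e.2 ∨ shX t e.1 ≠ shX t e.2 ∧ area e.1 e.2 (p i) ≠ 0 ∧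
          area e.1 e.2 (p j) ≠ 0 := by
        rcases good_of_chain hchain e he with h | h
        · exact Or.inl h
        · by_cases he' : e.1 = e.2
          · exact Or.inl he'
          · exact Or.inr ⟨(sepl _ (segs_mem he).1 _ (segs_mem he).2).resolve_left he', h i, h j⟩
      have hc := seg_cross t e.1 e.2 (p i) (p j) hcd (sep _ (segs_mem he).1 i)
        (sep _ (segs_mem he).1 j) (sep _ (segs_mem he).2 i) (sep _ (segs_mem he).2 j) hg
      have hnc := hcon e he
      simp only [Cut, SameSide] at hnc
      calc g e.1 + g e.2 + (up t e.1 e.2 (p i) + up t e.1 e.2 (p j))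
          = bit (s i == s j) * (σ e.1 + σ e.2) +
            bit (xor (side (p i) (p j) e.1) (side (p i) (p j) e.2) &&
              xor (side e.1 e.2 (p i)) (side e.1 e.2 (p j))) := by
            rw [← hc]; simp only [g]; ring
        _ = 0 := by
            revert hnc
            simp only [σ]
            generalize side (p i) (p j) e.1 = u
            generalize side (p i) (p j) e.2 = v
            generalize side e.1 e.2 (p i) = w
            generalize side e.1 e.2 (p j) = z
            generalize s i = si
            generalize s j = sj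
            revert u v w z si sj
            decide
    have total : ((segs l).map fun e =>
        g e.1 + g e.2 + (up t e.1 e.2 (p i) + up t e.1 e.2 (p j))).sum = 0 :=
      List.sum_eq_zero fun z hz => by
        obtain ⟨e, he, rfl⟩ := List.mem_map.1 hz
        exact row e he
    rw [sum_map_add, telescope g l x (-x) h0 h1, sum_map_add] at total
    simp only [g, circ x hx i j, circ (-x) hx' i j] at total
    simp only [q, Q] at hqe
    have hfl : bit (s i == s j) * (σ x + σ (-x)) = bit (s i == s j) := by
      cases hsij : (s i == s j)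
      · simp
      · have := hflip i j hij (by simpa using hsij)
        simp only [σ, ← bit_xor]
        revert this
        cases side (p i) (p j) x <;> cases side (p i) (p j) (-x) <;> simp
    have hss : bit (s i == s j) = 1 + bit (s i) + bit (s j) := by
      cases s i <;> cases s j <;> decide
    rw [← hfl] at hss
    have : (1 : ZMod 2) = 0 := by
      linear_combination total - hss - hqe
        - zmod2_add_self (bit (s j)) - zmod2_add_self
          (((segs l).map fun e => up t e.1 e.2 (p j)).sum + E x j + E (-x) j)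
    exact one_ne_zero this
  have hpairs := Vale.Agent.P040.same_side_pairs (n := 2 * k + 1) (fun i => q i = 1)
  rw [show (2 * k + 1) / 2 = k by omega, show (2 * k + 1 - 1) / 2 = k by omega] at hpairs
  refine hpairs.trans ?_
  have htwo : ∀ a b : ZMod 2, (a = 1 ↔ b = 1) → a = b := by decide
  rw [pathCost_eq]
  calc _ ≤ ((segs l).toFinset.biUnion fun e =>
        univ.filter fun r : Fin (2 * k + 1) × Fin (2 * k + 1) => r.1 < r.2 ∧
          Cut p s e.1 e.2 r.1 r.2).card := by
        refine Finset.card_le_card fun r hr => ?_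
        simp only [mem_filter, mem_univ, true_and] at hr
        obtain ⟨e, he, hcut⟩ := hq r.1 r.2 hr.1 (htwo _ _ hr.2)
        simp only [mem_biUnion, List.mem_toFinset, mem_filter, mem_univ, true_and]
        exact ⟨e, he, hr.1, hcut⟩
    _ ≤ ∑ e ∈ (segs l).toFinset, cost p s e.1 e.2 := by
        refine Finset.card_biUnion_le.trans (Finset.sum_le_sum fun e _ => ?_)
        rw [cost, Set.ncard_eq_toFinset_card', Set.toFinset_ofPred]
    _ ≤ _ := sum_toFinset_le _ _

end P040.Geo
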