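import Vale.Agent.P040.Geo.Cycle

/-!
# P040, geodesic drawings: costs of paths
-/

open Finset

namespace P040.Geo

variable {n : ℕ} {p : Fin n → Pt} {s : Fin n → Bool}

lemma area_swap (a b c : Pt) : area b a c = -area a b c := by
  unfold area; ring

lemma area_affine (a b x y : Pt) (u v : ℝ) (h : u + v = 1) :
    area a b (u • x + v • y) = u * area a b x + v * area a b y := by
  obtain rfl : v = 1 - u := by linarith
  unfold area
  simp only [Prod.fst_add, Prod.smul_fst, Prod.snd_add, Prod.smul_snd, smul_eq_mul]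
  ring

lemma side_swap {a b c : Pt} (h : area a b c ≠ 0) : side b a c = !side a b c := by
  unfold side
  rw [area_swap]
  rcases lt_or_gt_of_ne h with h' | h'
  · simp [h', not_lt.2 h'.le]
  · simp [h', not_lt.2 (neg_nonpos.2 h'.le)]

lemma Good.symm {a b : Pt} (h : Good p a b) : Good p b a := by
  rcases h with h | h
  · exact Or.inl h.symm
  · exact Or.inr fun i => by rw [area_swap]; exact neg_ne_zero.2 (h i)

lemma cost_self (a : Pt) : cost p s a a = 0 := by
  unfold cost Cut
  simp

lemma cost_symm {a b : Pt} (h : Good p a b) : cost p s b a = cost p s a b := by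
  rcases h with rfl | h
  · rfl
  unfold cost Cut SameSide
  congr 1
  ext q
  simp only [Set.mem_setOf_eq, side_swap (h q.1), side_swap (h q.2), ne_comm (a := side (p q.1) (p q.2) b)]
  simp

/-- cutting a good segment at one of its points -/
lemma split_segment {a b w : Pt} (h : Good p a b) (hw : w ∈ segment ℝ a b) :
    Good p a w ∧ Good p w b ∧ cost p s a b = cost p s a w + cost p s w b := by
  rcases h with rfl | h
  · rw [segment_same, Set.mem_singleton_iff] at hw
    subst hw
    exact ⟨Or.inl rfl, Or.inl rfl, by simp [cost_self]⟩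
  obtain ⟨u, v, hu, hv, huv, rfl⟩ := hw
  set w := u • a + v • b with hw
  rcases eq_or_lt_of_le hv with hv0 | hv0
  · obtain rfl : v = 0 := hv0.symm
    obtain rfl : u = 1 := by linarith
    simp only [one_smul, zero_smul, add_zero] at hw
    rw [hw]
    exact ⟨Or.inl rfl, Or.inr h, by simp [cost_self]⟩
  rcases eq_or_lt_of_le hu with hu0 | hu0
  · obtain rfl : u = 0 := hu0.symm
    obtain rfl : v = 1 := by linarith
    simp only [one_smul, zero_smul, zero_add] at hw
    rw [hw]
    exact ⟨Or.inr h, Or.inl rfl, by simp [cost_self]⟩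
  have e1 : ∀ c, area a w c = v * area a b c := by
    intro c
    obtain rfl : u = 1 - v := by linarith
    simp only [hw, area, Prod.fst_add, Prod.smul_fst, Prod.snd_add, Prod.smul_snd, smul_eq_mul]
    ring
  have e2 : ∀ c, area w b c = u * area a b c := by
    intro c
    obtain rfl : v = 1 - u := by linarith
    simp only [hw, area, Prod.fst_add, Prod.smul_fst, Prod.snd_add, Prod.smul_snd, smul_eq_mul]
    ring
  have s1 : ∀ c, side a w c = side a b c := fun c => by
    unfold side; rw [e1]; simp [mul_pos_iff_of_pos_left hv0]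
  have s2 : ∀ c, side w b c = side a b c := fun c => by
    unfold side; rw [e2]; simp [mul_pos_iff_of_pos_left hu0]
  refine ⟨Or.inr fun i => by rw [e1]; exact mul_ne_zero hv0.ne' (h i),
    Or.inr fun i => by rw [e2]; exact mul_ne_zero hu0.ne' (h i), ?_⟩
  have hm : ∀ c d, (side c d a = side c d b → side c d w = side c d a) := by
    intro c d hcd
    unfold side at hcd ⊢
    rw [decide_eq_decide] at hcd
    rw [decide_eq_decide, hw, area_affine c d a b u v huv]
    constructor
    · intro hp
      by_contra hn
      have hn' : ¬ 0 < area c d b := fun hb => hn (hcd.2 hb)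
      rw [not_lt] at hn hn'
      nlinarith [mul_nonpos_of_nonneg_of_nonpos hu hn, mul_nonpos_of_nonneg_of_nonpos hv hn']
    · intro ha
      exact add_pos (mul_pos hu0 ha) (mul_pos hv0 (hcd.1 ha))
  unfold cost
  rw [← Set.ncard_union_eq]
  · congr 1
    ext q
    simp only [Set.mem_union, Set.mem_setOf_eq, Cut, SameSide, s1, s2]
    have := hm (p q.1) (p q.2)
    revert this
    cases side (p q.1) (p q.2) a <;> cases side (p q.1) (p q.2) b <;>
      cases side (p q.1) (p q.2) w <;> simp
  · rw [Set.disjoint_left]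
    intro q
    simp only [Set.mem_setOf_eq, Cut, SameSide, s1, s2]
    have := hm (p q.1) (p q.2)
    revert this
    cases side (p q.1) (p q.2) a <;> cases side (p q.1) (p q.2) b <;>
      cases side (p q.1) (p q.2) w <;> simp

lemma pathCost_cons {a b : Pt} {l : List Pt} (h : l.head? = some b) :
    pathCost p s (a :: l) = cost p s a b + pathCost p s l := by
  cases l with
  | nil => simp at h
  | cons c l => simp at h; subst h; rfl

/-- splitting a path at a vertex -/
lemma pathCost_append (l₁ l₂ : List Pt) (a : Pt) :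
    pathCost p s (l₁ ++ a :: l₂) = pathCost p s (l₁ ++ [a]) + pathCost p s (a :: l₂) := by
  induction l₁ with
  | nil => simp [pathCost]
  | cons c l ih =>
    cases l with
    | nil => simp [pathCost]
    | cons d l =>
      simp only [List.cons_append, pathCost] at ih ⊢
      omega

lemma pathCost_reverse {l : List Pt} (h : l.IsChain (Good p)) :
    pathCost p s l.reverse = pathCost p s l := by
  induction l with
  | nil => rfl
  | cons a l ih =>
    cases l with
    | nil => rfl
    | cons b l =>
      rw [List.isChain_cons_cons] at h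
      rw [List.reverse_cons, List.reverse_cons, List.append_assoc, List.singleton_append,
        pathCost_append, ← List.reverse_cons, ih h.2]
      simp [pathCost, cost_symm h.1]
      omega

variable {R : ℝ}

lemma link_self {a : Pt} (ha : a.1 ^ 2 + a.2 ^ 2 ≤ R ^ 2) : Link p s R 0 a a :=
  ⟨[a], ⟨List.isChain_singleton a, by simpa using ha⟩, rfl, rfl, le_rfl⟩

lemma link_segment {a b : Pt} (h : Good p a b) (ha : a.1 ^ 2 + a.2 ^ 2 ≤ R ^ 2)
    (hb : b.1 ^ 2 + b.2 ^ 2 ≤ R ^ 2) : Link p s R (cost p s a b) a b :=
  ⟨[a, b], ⟨List.isChain_pair.2 h, by simp [ha, hb]⟩, rfl, rfl, by simp [pathCost]⟩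

lemma Link.symm {c : ℕ} {a b : Pt} (h : Link p s R c a b) : Link p s R c b a := by
  obtain ⟨l, ⟨hc, hd⟩, h0, h1, hl⟩ := h
  refine ⟨l.reverse, ⟨?_, fun x hx => hd x (List.mem_reverse.1 hx)⟩,
    by rw [List.head?_reverse]; exact h1, by rw [List.getLast?_reverse]; exact h0,
    by rw [pathCost_reverse hc]; exact hl⟩
  rw [List.isChain_reverse]
  exact hc.imp fun x y hxy => hxy.symm

lemma Link.trans {c d : ℕ} {a b e : Pt} (h : Link p s R c a b) (h' : Link p s R d b e) :
    Link p s R (c + d) a e := by
  obtain ⟨l, ⟨hc, hd⟩, h0, h1, hl⟩ := h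
  obtain ⟨l', ⟨hc', hd'⟩, h0', h1', hl'⟩ := h'
  obtain ⟨l₁, rfl⟩ : ∃ l₁, l = l₁ ++ [b] := by
    rw [List.getLast?_eq_some_iff] at h1
    exact h1
  obtain ⟨l₂, rfl⟩ : ∃ l₂, l' = b :: l₂ := by
    rw [List.head?_eq_some_iff] at h0'
    exact h0'
  refine ⟨l₁ ++ b :: l₂, ⟨?_, ?_⟩, ?_, ?_, ?_⟩
  · have := hc.append_overlap (l₂ := [b]) (l₃ := l₂) hc' (by simp)
    simpa using this
  · intro x hx
    rcases List.mem_append.1 hx with hx | hx
    · exact hd x (List.mem_append_left _ hx)
    · exact hd' x hx
  · cases l₁ with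
    | nil => simpa using h0
    | cons y l₁ => simpa using h0
  · rw [List.getLast?_append_of_ne_nil _ (by simp)]; exact h1'
  · rw [pathCost_append]; omega

end P040.Geo
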