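import Vale.Agent.P040.Geo.Main

/-!
# P040: straight-line drawings as geodesic drawings
-/

open Finset

namespace P040.Geo

open Vale.Agent.P040 (Vec det3 ArcsCross crossingPairs)

/-- the unordered pairs of distinct edges whose open straight segments meet -/
def segmentCrossings {ι κ : Type*} (a : ι → ℝ × ℝ) (b : κ → ℝ × ℝ) : Set (Sym2 (ι × κ)) :=
  {s | ∃ e f : ι × κ, s = s(e, f) ∧ e ≠ f ∧
    (openSegment ℝ (a e.1) (b e.2) ∩ openSegment ℝ (a f.1) (b f.2)).Nonempty}

/-- a point of the plane as a vector -/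
def lift3 (x : ℝ × ℝ) : Vec := ![x.1, x.2, 1]

lemma arcs_to_segments {a b c d : ℝ × ℝ} (h : ArcsCross (lift3 a) (lift3 b) (lift3 c) (lift3 d)) :
    (openSegment ℝ a b ∩ openSegment ℝ c d).Nonempty := by
  obtain ⟨α, β, γ, δ, hα, hβ, hγ, hδ, h⟩ := h
  have h0 := congrFun h 0
  have h1 := congrFun h 1
  have h2 := congrFun h 2
  simp [lift3] at h0 h1 h2
  have hab : 0 < α + β := by linarith
  refine ⟨(α / (α + β)) • a + (β / (α + β)) • b,
    ⟨α / (α + β), β / (α + β), div_pos hα hab, div_pos hβ hab, by field_simp, rfl⟩,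
    ⟨γ / (α + β), δ / (α + β), div_pos hγ hab, div_pos hδ hab,
      by rw [← add_div, ← h2, div_self hab.ne'], ?_⟩⟩
  ext <;> simp only [Prod.fst_add, Prod.smul_fst, Prod.snd_add, Prod.smul_snd, smul_eq_mul] <;>
    rw [div_mul_eq_mul_div, div_mul_eq_mul_div, div_mul_eq_mul_div, div_mul_eq_mul_div, ← add_div,
      ← add_div] <;> congr 1 <;> linarith

/-- Zarankiewicz's bound for straight-line drawings. -/
theorem straight_line_bound (m n : ℕ) (a : Fin m → ℝ × ℝ) (b : Fin n → ℝ × ℝ)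
    (h : ∀ u v w : Fin m ⊕ Fin n, u ≠ v → v ≠ w → u ≠ w →
      ((Sum.elim a b v).1 - (Sum.elim a b u).1) * ((Sum.elim a b w).2 - (Sum.elim a b u).2)
        ≠ ((Sum.elim a b v).2 - (Sum.elim a b u).2) * ((Sum.elim a b w).1 - (Sum.elim a b u).1)) :
    (m / 2) * ((m - 1) / 2) * ((n / 2) * ((n - 1) / 2)) ≤ (segmentCrossings a b).ncard := by
  refine le_trans (geodesic_bound m n (lift3 ∘ a) (lift3 ∘ b) ?_) (Set.ncard_le_ncard ?_ (Set.toFinite _))
  · intro u v w huv hvw huw
    have e : ∀ x, Sum.elim (lift3 ∘ a) (lift3 ∘ b) x = lift3 (Sum.elim a b x) := by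
      intro x; cases x <;> rfl
    rw [e, e, e]
    intro hd
    apply h u v w huv hvw huw
    simp [det3, lift3] at hd
    linarith
  · rintro s ⟨e, f, rfl, hne, hc⟩
    exact ⟨e, f, rfl, hne, arcs_to_segments hc⟩

end P040.Geo
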